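import Mathlib
import Vale.Agent.P078.Defs

/-!
# Range projections and spectral cuts in a von Neumann algebra
-/

open scoped InnerProductSpace ComplexOrder
open ContinuousLinearMap

namespace Vale.Agent.P078

universe u

variable {H : Type u} [NormedAddCommGroup H] [InnerProductSpace ℂ H] [CompleteSpace H]

namespace Semi

/-- Projection onto the closure of the range of `g`. -/
noncomputable def rangeProj (g : H →L[ℂ] H) : H →L[ℂ] H :=
  g.range.topologicalClosure.starProjection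

lemma rangeProj_isStarProjection (g : H →L[ℂ] H) : IsStarProjection (rangeProj g) :=
  isStarProjection_starProjection

lemma rangeProj_apply_self (g : H →L[ℂ] H) (v : H) : rangeProj g (g v) = g v :=
  Submodule.starProjection_eq_self_iff.2
    (Submodule.le_topologicalClosure _ (LinearMap.mem_range_self _ v))

lemma rangeProj_mul (g : H →L[ℂ] H) : rangeProj g * g = g :=
  ext fun v => rangeProj_apply_self g v

lemma mul_rangeProj_of_sa {g : H →L[ℂ] H} (hg : IsSelfAdjoint g) : g * rangeProj g = g := by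
  have h := congrArg star (rangeProj_mul g)
  rwa [star_mul, hg.star_eq, (rangeProj_isStarProjection g).isSelfAdjoint.star_eq] at h

lemma mul_rangeProj_eq_zero {g h : H →L[ℂ] H} (hz : h * g = 0) : h * rangeProj g = 0 := by
  ext v
  have hle : g.range.topologicalClosure ≤ h.ker := by
    refine Submodule.topologicalClosure_minimal _ ?_ h.isClosed_ker
    rintro w ⟨u, rfl⟩
    exact congrArg (fun T : H →L[ℂ] H => T u) hz
  exact hle (Submodule.starProjection_apply_mem _ v)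

lemma commute_rangeProj {g y : H →L[ℂ] H} (h : Commute y g) (h' : Commute (star y) g) :
    Commute y (rangeProj g) := by
  have key : ∀ z : H →L[ℂ] H, Commute z g →
      rangeProj g * z * rangeProj g = z * rangeProj g := by
    intro z hz
    ext v
    show rangeProj g (z (rangeProj g v)) = z (rangeProj g v)
    refine Submodule.starProjection_eq_self_iff.2 ?_
    have hle : g.range.topologicalClosure ≤
        g.range.topologicalClosure.comap (z : H →ₗ[ℂ] H) := by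
      refine Submodule.topologicalClosure_minimal _ ?_
        ((Submodule.isClosed_topologicalClosure _).preimage z.continuous)
      rintro w ⟨u, rfl⟩
      exact Submodule.le_topologicalClosure _
        ⟨z u, (congrArg (fun T : H →L[ℂ] H => T u) hz.eq).symm⟩
    exact hle (Submodule.starProjection_apply_mem _ v)
  have h1 := congrArg star (key _ h')
  simp only [star_mul, star_star, (rangeProj_isStarProjection g).isSelfAdjoint.star_eq] at h1
  have h2 := key _ h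
  rw [← mul_assoc, h2] at h1
  exact h1

/-- The spectral cut: projection on the range of `(b - θ)⁺`. -/
noncomputable def cut (b : H →L[ℂ] H) (θ : ℝ) : H →L[ℂ] H := rangeProj (b - θ • 1)⁺

lemma sa_sub_smul {b : H →L[ℂ] H} (hb : IsSelfAdjoint b) (θ : ℝ) :
    IsSelfAdjoint (b - θ • (1 : H →L[ℂ] H)) := by
  show star _ = _
  rw [star_sub, hb.star_eq, ← Complex.coe_smul, star_smul, star_one]
  simp

lemma cut_isStarProjection (b : H →L[ℂ] H) (θ : ℝ) : IsStarProjection (cut b θ) :=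
  rangeProj_isStarProjection _

lemma commute_posPart {g w : H →L[ℂ] H} (hw : Commute g w) : Commute w g⁺ := by
  rw [CFC.posPart_def]
  exact (hw.cfcₙ_real (fun t : ℝ => t⁺)).symm

lemma commute_sub_smul {b w : H →L[ℂ] H} (θ : ℝ) (hw : Commute w b) :
    Commute (b - θ • (1 : H →L[ℂ] H)) w := by
  refine (hw.sub_right ?_).symm
  exact Commute.smul_right (Commute.one_right w) θ

lemma commute_cut {b z : H →L[ℂ] H} (hb : IsSelfAdjoint b) (θ : ℝ) (hz : Commute z b) :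
    Commute z (cut b θ) := by
  refine commute_rangeProj (commute_posPart (commute_sub_smul θ hz))
    (commute_posPart (commute_sub_smul θ ?_))
  have := hz.star_star
  rwa [hb.star_eq] at this

lemma sub_mul_cut {b : H →L[ℂ] H} (hb : IsSelfAdjoint b) (θ : ℝ) :
    (b - θ • (1 : H →L[ℂ] H)) * cut b θ = (b - θ • (1 : H →L[ℂ] H))⁺ := by
  set g := b - θ • (1 : H →L[ℂ] H)
  have hg : IsSelfAdjoint g := sa_sub_smul hb θ
  conv_lhs => arg 1; rw [← CFC.posPart_sub_negPart g hg]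
  rw [sub_mul, cut, mul_rangeProj_of_sa (CFC.posPart_nonneg g).isSelfAdjoint,
    mul_rangeProj_eq_zero (CFC.negPart_mul_posPart g), sub_zero]

lemma sub_mul_one_sub_cut {b : H →L[ℂ] H} (hb : IsSelfAdjoint b) (θ : ℝ) :
    (b - θ • (1 : H →L[ℂ] H)) * (1 - cut b θ) = -(b - θ • (1 : H →L[ℂ] H))⁻ := by
  rw [mul_sub, mul_one, sub_mul_cut hb]
  set g := b - θ • (1 : H →L[ℂ] H)
  conv_lhs => arg 1; rw [← CFC.posPart_sub_negPart g (sa_sub_smul hb θ)]
  abel

lemma re_inner_nonneg {T : H →L[ℂ] H} (hT : 0 ≤ T) (v : H) : 0 ≤ (⟪v, T v⟫_ℂ).re :=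
  ((nonneg_iff_isPositive T).1 hT).re_inner_nonneg_right v

lemma re_inner_sub_smul (b : H →L[ℂ] H) (θ : ℝ) (v : H) :
    (⟪v, (b - θ • (1 : H →L[ℂ] H)) v⟫_ℂ).re = (⟪v, b v⟫_ℂ).re - θ * ‖v‖ ^ 2 := by
  show (⟪v, b v - θ • v⟫_ℂ).re = _
  rw [inner_sub_right, ← Complex.coe_smul, inner_smul_right, inner_self_eq_norm_sq_to_K]
  simp [← Complex.ofReal_pow]

lemma re_inner_cut_nonneg {b : H →L[ℂ] H} (hb : IsSelfAdjoint b) (θ : ℝ) {v : H}
    (hv : cut b θ v = v) : θ * ‖v‖ ^ 2 ≤ (⟪v, b v⟫_ℂ).re := by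
  have h := re_inner_nonneg (CFC.posPart_nonneg (b - θ • (1 : H →L[ℂ] H))) v
  rw [← sub_mul_cut hb θ] at h
  have h' : 0 ≤ (⟪v, (b - θ • (1 : H →L[ℂ] H)) v⟫_ℂ).re := by
    conv => arg 2; arg 1; arg 3; arg 2; rw [← hv]
    exact h
  rw [re_inner_sub_smul] at h'
  linarith

lemma re_inner_one_sub_cut_nonpos {b : H →L[ℂ] H} (hb : IsSelfAdjoint b) (θ : ℝ) {v : H}
    (hv : cut b θ v = 0) : (⟪v, b v⟫_ℂ).re ≤ θ * ‖v‖ ^ 2 := by
  have h := re_inner_nonneg (CFC.negPart_nonneg (b - θ • (1 : H →L[ℂ] H))) v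
  rw [← neg_neg (b - θ • (1 : H →L[ℂ] H))⁻, ← sub_mul_one_sub_cut hb θ] at h
  have hv1 : (1 - cut b θ) v = v := by
    show v - cut b θ v = v
    rw [hv, sub_zero]
  have h' : 0 ≤ (⟪v, -((b - θ • (1 : H →L[ℂ] H)) v)⟫_ℂ).re := by
    have e : (-((b - θ • (1 : H →L[ℂ] H)) * (1 - cut b θ))) v
        = -((b - θ • (1 : H →L[ℂ] H)) v) := by
      show -((b - θ • (1 : H →L[ℂ] H)) ((1 - cut b θ) v)) = _
      rw [hv1]
    rwa [e] at h
  rw [inner_neg_right, Complex.neg_re, re_inner_sub_smul] at h'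
  linarith

lemma cut_mul_self (b : H →L[ℂ] H) (θ : ℝ) : cut b θ * cut b θ = cut b θ :=
  (cut_isStarProjection b θ).isIdempotentElem.eq

lemma cut_cut_apply (b : H →L[ℂ] H) (θ : ℝ) (v : H) : cut b θ (cut b θ v) = cut b θ v :=
  congrArg (fun T : H →L[ℂ] H => T v) (cut_mul_self b θ)

lemma cut_one_sub_apply (b : H →L[ℂ] H) (θ : ℝ) (v : H) :
    cut b θ ((1 - cut b θ) v) = 0 := by
  show cut b θ (v - cut b θ v) = 0
  rw [map_sub, cut_cut_apply, sub_self]

lemma apply_mul (f g : H →L[ℂ] H) (v : H) : f (g v) = (f * g) v := rfl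

lemma proj_inner {f : H →L[ℂ] H} (hf : IsStarProjection f) (v w : H) :
    ⟪f v, w⟫_ℂ = ⟪v, f w⟫_ℂ := by
  conv_rhs => rw [← hf.isSelfAdjoint.star_eq, star_eq_adjoint, adjoint_inner_right]

lemma norm_proj_apply_le {f : H →L[ℂ] H} (hf : IsStarProjection f) (v : H) : ‖f v‖ ≤ ‖v‖ := by
  have h1 : ⟪f v, f v⟫_ℂ = ⟪v, f v⟫_ℂ := by
    rw [proj_inner hf, apply_mul, hf.isIdempotentElem.eq]
  have h2 : ‖f v‖ ^ 2 ≤ ‖v‖ * ‖f v‖ := by
    rw [← inner_self_eq_norm_sq (𝕜 := ℂ), h1]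
    exact re_inner_le_norm v (f v)
  nlinarith [norm_nonneg (f v), norm_nonneg v]

/-- Pythagoras for an orthogonal family of projections. -/
lemma norm_sq_sum_orth {κ : Type*} (s : Finset κ) {f : κ → H →L[ℂ] H}
    (hf : ∀ i ∈ s, IsStarProjection (f i)) (ho : ∀ i ∈ s, ∀ j ∈ s, i ≠ j → f i * f j = 0)
    (u : κ → H) : ‖∑ i ∈ s, f i (u i)‖ ^ 2 = ∑ i ∈ s, ‖f i (u i)‖ ^ 2 := by
  rw [← inner_self_eq_norm_sq (𝕜 := ℂ), sum_inner, map_sum]
  refine Finset.sum_congr rfl fun i hi => ?_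
  rw [inner_sum, Finset.sum_eq_single i]
  · exact inner_self_eq_norm_sq _
  · intro j hj hne
    rw [proj_inner (hf i hi), apply_mul, ho i hi j hj (Ne.symm hne)]
    simp
  · exact fun h => absurd hi h

lemma mem_vn {M : VonNeumannAlgebra H} {l : H →L[ℂ] H}
    (h : ∀ y ∈ M.commutant, Commute y l) : l ∈ M := by
  rw [← VonNeumannAlgebra.commutant_commutant M, VonNeumannAlgebra.mem_commutant_iff]
  exact h

lemma commute_commutant {M : VonNeumannAlgebra H} {b y : H →L[ℂ] H} (hb : b ∈ M)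
    (hy : y ∈ M.commutant) : Commute y b :=
  (VonNeumannAlgebra.mem_commutant_iff.1 hy b hb).symm

lemma cut_mem {M : VonNeumannAlgebra H} {b : H →L[ℂ] H} (hb : IsSelfAdjoint b) (hbM : b ∈ M)
    (θ : ℝ) : cut b θ ∈ M :=
  mem_vn fun _ hy => commute_cut hb θ (commute_commutant hbM hy)

lemma cut_mem_masa {M : VonNeumannAlgebra H} {A : StarSubalgebra ℂ (H →L[ℂ] H)} (hA : IsMASA M A)
    {b : H →L[ℂ] H} (hb : IsSelfAdjoint b) (hbA : b ∈ A) (θ : ℝ) : cut b θ ∈ A :=
  hA.2.2 _ (cut_mem hb (hA.1 b hbA) θ) fun a ha => commute_cut hb θ (hA.2.1 a ha b hbA)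

/-- Cutting at the square of the modulus: a projection `P` with `η P ≤ |y|` and
`|y| (1 - P) ≤ η`. -/
lemma exists_sq_cut (y : H →L[ℂ] H) {η : ℝ} (hη : 0 ≤ η) :
    ∃ P : H →L[ℂ] H, IsStarProjection P ∧
      (∀ z, Commute z (star y * y) → Commute z P) ∧
      (∀ v, η * ‖P v‖ ≤ ‖y v‖) ∧ (∀ v, ‖y ((1 - P) v)‖ ≤ η * ‖(1 - P) v‖) ∧
      (∀ v, ⟪y (P v), y ((1 - P) v)⟫_ℂ = 0) := by
  set b := star y * y with hb
  have hbs : IsSelfAdjoint b := IsSelfAdjoint.star_mul_self y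
  set P := cut b (η ^ 2) with hP
  have hPp : IsStarProjection P := cut_isStarProjection _ _
  have hq : ∀ u w : H, ⟪u, b w⟫_ℂ = ⟪y u, y w⟫_ℂ := fun u w => by
    rw [hb, star_eq_adjoint]
    exact adjoint_inner_right y u (y w)
  have hn : ∀ u : H, (⟪u, b u⟫_ℂ).re = ‖y u‖ ^ 2 := fun u => by
    rw [hq]; exact inner_self_eq_norm_sq (𝕜 := ℂ) _
  have horth : ∀ v, ⟪y (P v), y ((1 - P) v)⟫_ℂ = 0 := fun v => by
    rw [← hq, proj_inner hPp]
    have h1 : P (b ((1 - P) v)) = b (P ((1 - P) v)) :=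
      (congrArg (fun T : H →L[ℂ] H => T ((1 - P) v))
        (commute_cut hbs (η ^ 2) (Commute.refl b)).eq).symm
    rw [h1, cut_one_sub_apply]
    simp
  refine ⟨P, hPp, fun z hz => commute_cut hbs _ hz, fun v => ?_, fun v => ?_, horth⟩
  · have h1 := re_inner_cut_nonneg hbs (η ^ 2) (cut_cut_apply b (η ^ 2) v)
    rw [hn] at h1
    have h2 : ‖y v‖ ^ 2 = ‖y (P v)‖ ^ 2 + ‖y ((1 - P) v)‖ ^ 2 := by
      have h : y v = y (P v) + y ((1 - P) v) := by
        rw [← map_add]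
        show y v = y (P v + (v - P v))
        rw [add_sub_cancel]
      rw [h, norm_add_sq (𝕜 := ℂ) (y (P v)) (y ((1 - P) v)), horth v]
      simp
    have h3 : (η * ‖P v‖) ^ 2 ≤ ‖y v‖ ^ 2 := by
      rw [mul_pow]; linarith [sq_nonneg ‖y ((1 - P) v)‖]
    exact le_of_pow_le_pow_left₀ two_ne_zero (norm_nonneg _) h3
  · have h1 := re_inner_one_sub_cut_nonpos hbs (η ^ 2) (cut_one_sub_apply b (η ^ 2) v)
    rw [hn, ← mul_pow] at h1
    exact le_of_pow_le_pow_left₀ two_ne_zero (by positivity) h1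

lemma cut_anti {b : H →L[ℂ] H} (hb : IsSelfAdjoint b) {θ θ' : ℝ} (h : θ < θ') :
    cut b θ * cut b θ' = cut b θ' := by
  have hc : Commute (cut b θ') (cut b θ) :=
    commute_cut hb θ (commute_cut hb θ' (Commute.refl b)).symm
  ext v
  set w := (1 - cut b θ) (cut b θ' v) with hw
  have h0 : cut b θ w = 0 := cut_one_sub_apply b θ _
  have h1 : cut b θ' w = w := by
    have hc' : Commute (cut b θ') (1 - cut b θ) := (Commute.one_right _).sub_right hc
    rw [hw, apply_mul, hc'.eq]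
    show (1 - cut b θ) (cut b θ' (cut b θ' v)) = _
    rw [cut_cut_apply]
  have h3 : ‖w‖ ^ 2 ≤ 0 := by
    have ha := re_inner_cut_nonneg hb θ' h1
    have hb' := re_inner_one_sub_cut_nonpos hb θ h0
    nlinarith [sq_nonneg ‖w‖]
  have h4 : w = 0 := norm_le_zero_iff.1 (by nlinarith [norm_nonneg w])
  show cut b θ (cut b θ' v) = cut b θ' v
  have h5 : cut b θ' v - cut b θ (cut b θ' v) = 0 := h4
  exact (sub_eq_zero.1 h5).symm

lemma cut_eq_one {b : H →L[ℂ] H} (hb : IsSelfAdjoint b) {θ : ℝ} (h : θ < -‖b‖) :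
    cut b θ = 1 := by
  ext v
  set w := (1 - cut b θ) v with hw
  have h1 := re_inner_one_sub_cut_nonpos hb θ (cut_one_sub_apply b θ v)
  have h2 : -(‖b‖ * ‖w‖ ^ 2) ≤ (⟪w, b w⟫_ℂ).re := by
    have := (Complex.abs_re_le_norm _).trans ((norm_inner_le_norm w (b w)).trans
      (mul_le_mul_of_nonneg_left (b.le_opNorm w) (norm_nonneg _)))
    nlinarith [abs_le.1 this]
  rw [← hw] at h1
  have h4 : w = 0 := by
    by_contra hne
    have hp := norm_pos_iff.2 hne
    nlinarith [mul_pos (sub_pos.2 h) (mul_pos hp hp)]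
  have h5 : v - cut b θ v = 0 := h4
  exact (sub_eq_zero.1 h5).symm

lemma cut_eq_zero {b : H →L[ℂ] H} (hb : IsSelfAdjoint b) {θ : ℝ} (h : ‖b‖ < θ) :
    cut b θ = 0 := by
  ext v
  set w := cut b θ v with hw
  have h1 := re_inner_cut_nonneg hb θ (cut_cut_apply b θ v)
  have h2 := (Complex.re_le_norm _).trans ((norm_inner_le_norm w (b w)).trans
      (mul_le_mul_of_nonneg_left (b.le_opNorm w) (norm_nonneg _)))
  rw [← hw] at h1
  by_contra hne
  have hp := norm_pos_iff.2 hne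
  nlinarith [mul_pos (sub_pos.2 h) (mul_pos hp hp)]

lemma window_apply {b E : H →L[ℂ] H} (hb : IsSelfAdjoint b) {θ h : ℝ} (hh : 0 ≤ h)
    (hE : IsStarProjection E) (hc : Commute E b) (hlo : cut b θ * E = E)
    (hhi : cut b (θ + h) * E = 0) (u : H) :
    ‖((b - θ • (1 : H →L[ℂ] H)) * E) u‖ ≤ h * ‖u‖ := by
  set g := b - θ • (1 : H →L[ℂ] H)
  have hg : IsSelfAdjoint g := sa_sub_smul hb θ
  have hEg : Commute g E := commute_sub_smul θ hc
  have hform : ∀ v, (⟪v, (g * E) v⟫_ℂ).re = (⟪E v, b (E v)⟫_ℂ).re - θ * ‖E v‖ ^ 2 := by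
    intro v
    rw [← re_inner_sub_smul, proj_inner hE]
    show _ = (⟪v, E (g (E v))⟫_ℂ).re
    congr 2
    rw [apply_mul, apply_mul, ← hEg.eq, mul_assoc, hE.isIdempotentElem.eq]
  have hsa : IsSelfAdjoint (g * E) := (hg.commute_iff hE.isSelfAdjoint).1 hEg
  have h0 : 0 ≤ g * E := by
    rw [nonneg_iff_isPositive, isPositive_def']
    refine ⟨hsa, fun v => ?_⟩
    show 0 ≤ (⟪(g * E) v, v⟫_ℂ).re
    rw [← inner_conj_symm, Complex.conj_re, hform]
    have := re_inner_cut_nonneg hb θ (v := E v) (congrArg (fun T : H →L[ℂ] H => T v) hlo)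
    linarith
  have h1 : g * E ≤ algebraMap ℝ (H →L[ℂ] H) h := by
    rw [le_def, isPositive_def']
    refine ⟨(IsSelfAdjoint.algebraMap _ (IsSelfAdjoint.all h)).sub hsa, fun v => ?_⟩
    show 0 ≤ (⟪(algebraMap ℝ (H →L[ℂ] H) h - g * E) v, v⟫_ℂ).re
    rw [← inner_conj_symm, Complex.conj_re, sub_apply, inner_sub_right, Complex.sub_re, hform]
    have h2 := re_inner_one_sub_cut_nonpos hb (θ + h) (v := E v)
      (congrArg (fun T : H →L[ℂ] H => T v) hhi)
    have h3 : (⟪v, algebraMap ℝ (H →L[ℂ] H) h v⟫_ℂ).re = h * ‖v‖ ^ 2 := by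
      rw [Algebra.algebraMap_eq_smul_one]
      show (⟪v, h • v⟫_ℂ).re = _
      rw [← Complex.coe_smul, inner_smul_right, inner_self_eq_norm_sq_to_K]
      simp [← Complex.ofReal_pow]
    rw [h3]
    nlinarith [mul_le_mul_of_nonneg_left
      (pow_le_pow_left₀ (norm_nonneg _) (norm_proj_apply_le hE v) 2) hh]
  exact ((g * E).le_opNorm u).trans (mul_le_mul_of_nonneg_right
    ((CStarAlgebra.norm_le_iff_le_algebraMap _ hh h0).2 h1) (norm_nonneg u))

end Semi

end Vale.Agent.P078
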