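import Mathlib
import Vale.Agent.P078.Semi.Spectral

/-!
# An element commuting with all projections of a MASA belongs to it
-/

open scoped InnerProductSpace ComplexOrder
open ContinuousLinearMap

namespace Vale.Agent.P078

universe u

variable {H : Type u} [NormedAddCommGroup H] [InnerProductSpace ℂ H] [CompleteSpace H]

namespace Semi

lemma window_comm_le {b y E : H →L[ℂ] H} (hb : IsSelfAdjoint b) {θ h : ℝ} (hh : 0 ≤ h)
    (hE : IsStarProjection E) (hc : Commute E b) (hyE : Commute y E)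
    (hlo : cut b θ * E = E) (hhi : cut b (θ + h) * E = 0) (v : H) :
    ‖(y * b - b * y) (E v)‖ ≤ 2 * h * ‖y‖ * ‖E v‖ := by
  set g := b - θ • (1 : H →L[ℂ] H) with hg
  have hcomm : y * b - b * y = y * g - g * y := by
    simp only [hg, mul_sub, sub_mul, mul_smul_comm, smul_mul_assoc, mul_one, one_mul]
    abel
  have hEE : E (E v) = E v := congrArg (fun T : H →L[ℂ] H => T v) hE.isIdempotentElem.eq
  have h1 : ‖g (E v)‖ ≤ h * ‖E v‖ := by
    have := window_apply hb hh hE hc hlo hhi (E v)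
    rwa [← apply_mul, hEE] at this
  have h2 : ‖g (y (E v))‖ ≤ h * (‖y‖ * ‖E v‖) := by
    have h3 := window_apply hb hh hE hc hlo hhi (y (E v))
    have h4 : E (y (E v)) = y (E v) := by
      rw [apply_mul, ← hyE.eq, ← apply_mul, hEE]
    rw [← apply_mul, h4] at h3
    exact h3.trans (mul_le_mul_of_nonneg_left (y.le_opNorm _) hh)
  rw [hcomm]
  show ‖y (g (E v)) - g (y (E v))‖ ≤ _
  refine (norm_sub_le _ _).trans ?_
  nlinarith [(y.le_opNorm (g (E v))).trans (mul_le_mul_of_nonneg_left h1 (norm_nonneg y))]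

lemma cut_chain_sum {b : H →L[ℂ] H} (θ : ℕ → ℝ) (N : ℕ) :
    ∑ k ∈ Finset.range N, (cut b (θ k) - cut b (θ (k + 1))) = cut b (θ 0) - cut b (θ N) :=
  Finset.sum_range_sub' (fun k => cut b (θ k)) N

lemma commute_of_commute_cuts {b y : H →L[ℂ] H} (hb : IsSelfAdjoint b)
    (hy : ∀ θ : ℝ, Commute y (cut b θ)) : Commute y b := by
  set C := y * b - b * y with hC
  suffices hsmall : ∀ h : ℝ, 0 < h → ∀ v, ‖C v‖ ≤ 2 * h * ‖y‖ * ‖v‖ by
    refine sub_eq_zero.1 (ext fun v => ?_)
    show C v = 0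
    refine norm_le_zero_iff.1 (le_of_forall_pos_le_add fun e he => ?_)
    rw [zero_add]
    refine (hsmall (e / (2 * ‖y‖ * ‖v‖ + 1)) (by positivity) v).trans ?_
    have h1 : e / (2 * ‖y‖ * ‖v‖ + 1) * (2 * ‖y‖ * ‖v‖ + 1) = e := by
      field_simp
    nlinarith [show 0 ≤ e / (2 * ‖y‖ * ‖v‖ + 1) by positivity]
  intro h hh v
  let θ : ℕ → ℝ := fun k => -‖b‖ - h + k * h
  obtain ⟨N, hN⟩ := exists_nat_gt ((2 * ‖b‖ + h) / h)
  rw [div_lt_iff₀ hh] at hN
  let E : ℕ → H →L[ℂ] H := fun k => cut b (θ k) - cut b (θ (k + 1))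
  have hθ : ∀ k l, k < l → θ k < θ l := fun k l hkl => by
    simp only [θ]
    have : (k : ℝ) < l := Nat.cast_lt.2 hkl
    nlinarith
  have hcc : ∀ k l, Commute (cut b (θ k)) (cut b (θ l)) := fun k l =>
    commute_cut hb _ (commute_cut hb _ (Commute.refl b)).symm
  have hanti : ∀ k l, k ≤ l → cut b (θ k) * cut b (θ l) = cut b (θ l) := fun k l hkl => by
    rcases hkl.eq_or_lt with rfl | h
    · exact cut_mul_self _ _
    · exact cut_anti hb (hθ k l h)
  have hanti' : ∀ k l, k ≤ l → cut b (θ l) * cut b (θ k) = cut b (θ l) := fun k l hkl => by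
    rw [(hcc l k).eq, hanti k l hkl]
  have hEp : ∀ k, IsStarProjection (E k) := fun k => by
    refine ⟨?_, (cut_isStarProjection _ _).isSelfAdjoint.sub (cut_isStarProjection _ _).isSelfAdjoint⟩
    show (cut b (θ k) - cut b (θ (k + 1))) * (cut b (θ k) - cut b (θ (k + 1))) = _
    rw [sub_mul, mul_sub, mul_sub, cut_mul_self, hanti k _ k.le_succ, hanti' k _ k.le_succ,
      cut_mul_self, sub_self, sub_zero]
  have hsum : ∑ k ∈ Finset.range N, E k = 1 := by
    rw [cut_chain_sum, cut_eq_one hb (by simp only [θ]; push_cast; linarith),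
      cut_eq_zero hb (by simp only [θ]; linarith), sub_zero]
  have hyE : ∀ k, Commute y (E k) := fun k => (hy _).sub_right (hy _)
  have hbE : ∀ k, Commute (E k) b := fun k =>
    (commute_cut hb _ (Commute.refl b)).symm.sub_left (commute_cut hb _ (Commute.refl b)).symm
  have hCE : ∀ k, Commute C (E k) := fun k =>
    ((hyE k).mul_left (hbE k).symm).sub_left ((hbE k).symm.mul_left (hyE k))
  have horth : ∀ k l, k < l → E k * E l = 0 := fun k l hkl => by
    show (cut b (θ k) - cut b (θ (k + 1))) * (cut b (θ l) - cut b (θ (l + 1))) = 0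
    rw [sub_mul, mul_sub, mul_sub, hanti k l (by omega), hanti k (l + 1) (by omega),
      hanti (k + 1) l (by omega), hanti (k + 1) (l + 1) (by omega), sub_self]
  have horth' : ∀ k ∈ Finset.range N, ∀ l ∈ Finset.range N, k ≠ l → E k * E l = 0 := by
    intro k _ l _ hkl
    rcases lt_or_gt_of_ne hkl with h | h
    · exact horth k l h
    · have := congrArg star (horth l k h)
      rwa [star_mul, (hEp l).isSelfAdjoint.star_eq, (hEp k).isSelfAdjoint.star_eq, star_zero] at this
  have hdec : C v = ∑ k ∈ Finset.range N, E k (C v) := by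
    rw [← sum_apply, hsum]
    rfl
  refine le_of_pow_le_pow_left₀ two_ne_zero (by positivity) ?_
  rw [hdec, norm_sq_sum_orth _ (fun k _ => hEp k) horth' (fun _ => C v)]
  have hb1 : ∀ k ∈ Finset.range N, ‖E k (C v)‖ ^ 2 ≤ (2 * h * ‖y‖) ^ 2 * ‖E k v‖ ^ 2 := by
    intro k _
    rw [← mul_pow, apply_mul, ← (hCE k).eq, ← apply_mul]
    refine pow_le_pow_left₀ (norm_nonneg _) (window_comm_le (θ := θ k) hb hh.le (hEp k) (hbE k) (hyE k)
      ?_ ?_ v) 2
    · show cut b (θ k) * (cut b (θ k) - cut b (θ (k + 1))) = _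
      rw [mul_sub, cut_mul_self, hanti k (k + 1) k.le_succ]
    · have : θ k + h = θ (k + 1) := by simp only [θ]; push_cast; ring
      show cut b (θ k + h) * (cut b (θ k) - cut b (θ (k + 1))) = 0
      rw [this, mul_sub, cut_mul_self, hanti' k (k + 1) k.le_succ, sub_self]
  refine (Finset.sum_le_sum hb1).trans ?_
  rw [← Finset.mul_sum, ← norm_sq_sum_orth _ (fun k _ => hEp k) horth' (fun _ => v),
    ← sum_apply, hsum]
  exact (mul_pow _ _ _).symm.le

/-- An element of `M` commuting with all projections of the MASA `A` lies in `A`. -/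
lemma mem_masa_of_commute_proj {M : VonNeumannAlgebra H} {A : StarSubalgebra ℂ (H →L[ℂ] H)}
    (hA : IsMASA M A) {y : H →L[ℂ] H} (hyM : y ∈ M)
    (h : ∀ e ∈ A, IsStarProjection e → Commute e y) : y ∈ A := by
  refine hA.2.2 y hyM fun a ha => ?_
  have hs : ∀ b ∈ A, IsSelfAdjoint b → Commute b y := fun b hbA hb =>
    (commute_of_commute_cuts hb fun θ =>
      (h _ (cut_mem_masa hA hb hbA θ) (cut_isStarProjection b θ)).symm).symm
  have hre : (realPart a : H →L[ℂ] H) ∈ A := by
    rw [realPart_apply_coe, ← Complex.coe_smul]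
    exact A.smul_mem (add_mem ha (star_mem ha)) _
  have him : (imaginaryPart a : H →L[ℂ] H) ∈ A := by
    rw [imaginaryPart_apply_coe, ← Complex.coe_smul]
    exact A.smul_mem (A.smul_mem (sub_mem ha (star_mem ha)) _) _
  have := (hs _ hre (realPart a).2).add_left ((hs _ him (imaginaryPart a).2).smul_left Complex.I)
  rw [realPart_add_I_smul_imaginaryPart a] at this
  exact this.eq

end Semi

end Vale.Agent.P078
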