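import Mathlib
import Vale.Agent.P078.Defs

/-!
# Semifinite traces given by families of vectors
-/

open scoped InnerProductSpace

namespace Vale.Agent.P078

universe u

variable {H : Type u} [NormedAddCommGroup H] [InnerProductSpace ℂ H] [CompleteSpace H]

/-- `ξ` exhibits a faithful normal semifinite trace on `M`: writing `T x = ∑ i, ‖x (ξ i)‖ ^ 2` for
the value at `star x * x`, one has `T (star x) = T x` on all of `M`, `T x = 0` only for `x = 0`,
and every finite set of vectors is nearly fixed by a projection of finite trace. -/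
def IsFaithfulSemifiniteTrace (M : VonNeumannAlgebra H) {ι : Type u} (ξ : ι → H) : Prop :=
  (∀ x ∈ M, Summable (fun i => ‖x (ξ i)‖ ^ 2) →
      Summable (fun i => ‖(star x) (ξ i)‖ ^ 2) ∧
        ∑' i, ‖(star x) (ξ i)‖ ^ 2 = ∑' i, ‖x (ξ i)‖ ^ 2) ∧
    (∀ x ∈ M, (∀ i, x (ξ i) = 0) → x = 0) ∧
    (∀ (F : Finset H) (δ : ℝ), 0 < δ → ∃ p ∈ M, IsStarProjection p ∧
      Summable (fun i => ‖p (ξ i)‖ ^ 2) ∧ ∀ v ∈ F, ‖(1 - p) v‖ < δ)

/-- A projection of `A` of finite trace. -/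
def IsFiniteProj (A : StarSubalgebra ℂ (H →L[ℂ] H)) {ι : Type u} (ξ : ι → H) (f : H →L[ℂ] H) :
    Prop :=
  f ∈ A ∧ IsStarProjection f ∧ Summable (fun i => ‖f (ξ i)‖ ^ 2)

end Vale.Agent.P078
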