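import Mathlib
import Vale.Agent.P078.Semi.Defs

/-!
# Corners of von Neumann algebras at projections of a MASA, with their tracial states
-/

open scoped InnerProductSpace

namespace Vale.Agent.P078

universe u

variable {H : Type u} [NormedAddCommGroup H] [InnerProductSpace ℂ H] [CompleteSpace H]

set_option linter.unusedSectionVars false

namespace Corner

variable (U : Submodule ℂ H) [CompleteSpace U]

/-- An operator on the subspace, extended by zero. -/
noncomputable def up (S : U →L[ℂ] U) : H →L[ℂ] H :=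
  U.subtypeL ∘L S ∘L U.orthogonalProjectionOnto

/-- The compression of an operator to the subspace. -/
noncomputable def down (x : H →L[ℂ] H) : U →L[ℂ] U :=
  U.orthogonalProjectionOnto ∘L x ∘L U.subtypeL

lemma up_apply (S : U →L[ℂ] U) (v : H) : up U S v = (S (U.orthogonalProjectionOnto v) : H) := rfl

lemma down_apply (x : H →L[ℂ] H) (v : U) : down U x v = U.orthogonalProjectionOnto (x v) := rfl

lemma down_up (S : U →L[ℂ] U) : down U (up U S) = S := by
  ext v
  simp [down_apply, up_apply]

lemma up_down (x : H →L[ℂ] H) : up U (down U x) = U.starProjection * x * U.starProjection := by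
  ext v
  simp [down_apply, up_apply]

lemma up_mul (S T : U →L[ℂ] U) : up U (S * T) = up U S * up U T := by
  ext v
  simp [up_apply]

lemma up_one : up U 1 = U.starProjection := by
  ext v
  simp [up_apply]

lemma up_add (S T : U →L[ℂ] U) : up U (S + T) = up U S + up U T := by
  ext v
  simp [up_apply]

lemma up_sub (S T : U →L[ℂ] U) : up U (S - T) = up U S - up U T := by
  ext v
  simp [up_apply]

lemma up_smul (c : ℂ) (S : U →L[ℂ] U) : up U (c • S) = c • up U S := by
  ext v
  simp [up_apply]

lemma up_zero : up U 0 = 0 := by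
  ext v
  simp [up_apply]

lemma up_sum {n : ℕ} (S : Fin n → (U →L[ℂ] U)) : up U (∑ i, S i) = ∑ i, up U (S i) :=
  map_sum (AddMonoidHom.mk' (up U) (up_add U)) S _

lemma up_star (S : U →L[ℂ] U) : up U (star S) = star (up U S) := by
  simp only [up, ContinuousLinearMap.star_eq_adjoint, ContinuousLinearMap.adjoint_comp,
    U.adjoint_subtypeL, U.adjoint_orthogonalProjectionOnto, ContinuousLinearMap.comp_assoc]

lemma down_star (x : H →L[ℂ] H) : down U (star x) = star (down U x) := by
  simp only [down, ContinuousLinearMap.star_eq_adjoint, ContinuousLinearMap.adjoint_comp,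
    U.adjoint_subtypeL, U.adjoint_orthogonalProjectionOnto, ContinuousLinearMap.comp_assoc]

lemma up_mul_proj (S : U →L[ℂ] U) : up U S * U.starProjection = up U S := by
  rw [← up_one U, ← up_mul, mul_one]

lemma proj_mul_up (S : U →L[ℂ] U) : U.starProjection * up U S = up U S := by
  rw [← up_one U, ← up_mul, one_mul]

lemma norm_up_le (S : U →L[ℂ] U) : ‖up U S‖ ≤ ‖S‖ :=
  ContinuousLinearMap.opNorm_le_bound _ (ContinuousLinearMap.opNorm_nonneg S) fun v =>
    (S.le_opNorm _).trans (mul_le_mul_of_nonneg_left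
      (U.norm_orthogonalProjectionOnto_apply_le v) (ContinuousLinearMap.opNorm_nonneg S))

lemma norm_down_le (x : H →L[ℂ] H) : ‖down U x‖ ≤ ‖x‖ :=
  ContinuousLinearMap.opNorm_le_bound _ (norm_nonneg _) fun v =>
    (U.norm_orthogonalProjectionOnto_apply_le _).trans (x.le_opNorm _)

lemma isStarProjection_up {p : U →L[ℂ] U} (hp : IsStarProjection p) :
    IsStarProjection (up U p) :=
  ⟨by rw [IsIdempotentElem, ← up_mul, hp.isIdempotentElem.eq],
    by rw [IsSelfAdjoint, ← up_star, hp.isSelfAdjoint.star_eq]⟩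

/-- The compressed algebra, as a centraliser. -/
noncomputable def cornerAlg (M : VonNeumannAlgebra H) : VonNeumannAlgebra U where
  toStarSubalgebra :=
    StarSubalgebra.centralizer ℂ (down U '' (M.commutant : Set (H →L[ℂ] H)))
  centralizer_centralizer' := by simp

variable {M : VonNeumannAlgebra H} {A : StarSubalgebra ℂ (H →L[ℂ] H)}

lemma mem_cornerAlg (hU : U.starProjection ∈ M) {S : U →L[ℂ] U} :
    S ∈ cornerAlg U M ↔ up U S ∈ M := by
  have hcomm : ∀ y ∈ M.commutant, U.starProjection * y = y * U.starProjection :=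
    fun y hy => VonNeumannAlgebra.mem_commutant_iff.1 hy _ hU
  constructor
  · intro h
    rw [← VonNeumannAlgebra.commutant_commutant M, VonNeumannAlgebra.mem_commutant_iff]
    intro y hy
    have hc : down U y * S = S * down U y :=
      (StarSubalgebra.mem_centralizer_iff ℂ).1 h _ ⟨y, hy, rfl⟩ |>.1
    have he := congrArg (up U) hc
    rw [up_mul, up_mul, up_down, hcomm y hy, mul_assoc y,
      (isStarProjection_starProjection (U := U)).isIdempotentElem.eq, mul_assoc, proj_mul_up] at he
    rw [he, ← hcomm y hy, ← mul_assoc, up_mul_proj]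
  · intro h
    refine (StarSubalgebra.mem_centralizer_iff ℂ).2 ?_
    rintro _ ⟨y, hy, rfl⟩
    have key : ∀ y ∈ M.commutant, down U y * S = S * down U y := by
      intro y hy
      have he : up U (down U y * S) = up U (S * down U y) := by
        rw [up_mul, up_mul, up_down, hcomm y hy, mul_assoc y,
          (isStarProjection_starProjection (U := U)).isIdempotentElem.eq, mul_assoc, proj_mul_up,
          ← hcomm y hy, ← mul_assoc, up_mul_proj,
          VonNeumannAlgebra.mem_commutant_iff.1 hy _ h]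
      simpa only [down_up] using congrArg (down U) he
    exact ⟨key y hy, by rw [← down_star]; exact key _ (star_mem hy)⟩

lemma down_mem_cornerAlg (hU : U.starProjection ∈ M) {x : H →L[ℂ] H} (hx : x ∈ M) :
    down U x ∈ cornerAlg U M := by
  rw [mem_cornerAlg U hU, up_down]
  exact mul_mem (mul_mem hU hx) hU

/-- The compressed MASA. -/
noncomputable def cornerMASA (A : StarSubalgebra ℂ (H →L[ℂ] H)) (hU : U.starProjection ∈ A) :
    StarSubalgebra ℂ (U →L[ℂ] U) where
  carrier := {S | up U S ∈ A}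
  mul_mem' {S T} hS hT := by
    rw [Set.mem_ofPred_eq, up_mul]
    exact mul_mem hS hT
  add_mem' {S T} hS hT := by
    rw [Set.mem_ofPred_eq, up_add]
    exact add_mem hS hT
  algebraMap_mem' c := by
    rw [Set.mem_ofPred_eq, Algebra.algebraMap_eq_smul_one, up_smul, up_one]
    exact A.smul_mem hU c
  star_mem' {S} hS := by
    rw [Set.mem_ofPred_eq, up_star]
    exact star_mem hS

lemma mem_cornerMASA (hU : U.starProjection ∈ A) {S : U →L[ℂ] U} :
    S ∈ cornerMASA U A hU ↔ up U S ∈ A := Iff.rfl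

lemma isMASA_corner (hA : IsMASA M A) (hU : U.starProjection ∈ A) :
    IsMASA (cornerAlg U M) (cornerMASA U A hU) := by
  refine ⟨fun S hS => (mem_cornerAlg U (hA.1 _ hU)).2 (hA.1 _ hS), fun S hS T hT => ?_,
    fun S hS hc => ?_⟩
  · have h := hA.2.1 _ hS _ hT
    rw [← up_mul, ← up_mul] at h
    simpa only [down_up] using congrArg (down U) h
  · rw [mem_cornerMASA]
    refine hA.2.2 _ ((mem_cornerAlg U (hA.1 _ hU)).1 hS) fun a ha => ?_
    have hd : down U a ∈ cornerMASA U A hU := by
      rw [mem_cornerMASA, up_down]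
      exact mul_mem (mul_mem hU ha) hU
    have h := congrArg (up U) (hc _ hd)
    rw [up_mul, up_mul, up_down, hA.2.1 _ hU a ha, mul_assoc a,
      (isStarProjection_starProjection (U := U)).isIdempotentElem.eq, mul_assoc, proj_mul_up] at h
    rw [h, ← hA.2.1 _ hU a ha, ← mul_assoc, up_mul_proj]

omit [CompleteSpace H] in
/-- Enumerating the nonzero terms of a family by natural numbers preserves sums. -/
lemma hasSum_extend_support {ι : Type u} {s : Set ι} {e : s → ℕ} (he : Function.Injective e)
    {w : ι → U} (hs : ∀ i, i ∉ s → w i = 0) {φ : U → ℝ} (h0 : φ 0 = 0) {a : ℝ}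
    (h : HasSum (fun i => φ (w i)) a) :
    HasSum (fun n => φ (Function.extend e (fun i : s => w i) 0 n)) a := by
  have h1 : HasSum (fun i : s => φ (w i)) a := by
    refine (Function.Injective.hasSum_iff (g := ((↑) : s → ι)) Subtype.val_injective ?_).2 h
    intro i hi
    rw [hs i fun hm => hi ⟨⟨i, hm⟩, rfl⟩, h0]
  refine (he.hasSum_iff ?_).1 ?_
  · intro n hn
    rw [Function.extend_apply' _ _ _ (fun ⟨i, hi⟩ => hn ⟨i, hi⟩)]
    exact h0
  · simpa [Function.comp_def, he.extend_apply] using h1

/-- Equal mass of `star X` and `X` gives a trace, by polarisation. -/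
lemma trace_comm {K : Type u} [NormedAddCommGroup K] [InnerProductSpace ℂ K] [CompleteSpace K]
    (N : VonNeumannAlgebra K) {η : ℕ → K} {q : (K →L[ℂ] K) → ℝ}
    (hsq : ∀ X : K →L[ℂ] K, HasSum (fun n => ‖X (η n)‖ ^ 2) (q X))
    (hq : ∀ X ∈ N, q (star X) = q X) :
    ∀ S ∈ N, ∀ T ∈ N, (∑' n, ⟪η n, (S * T) (η n)⟫_ℂ) = ∑' n, ⟪η n, (T * S) (η n)⟫_ℂ := by
  intro S hS T hT
  have hpol : ∀ X Y : K →L[ℂ] K, HasSum (fun n => ⟪X (η n), Y (η n)⟫_ℂ)
      (((q (X + Y) : ℂ) - q (X - Y)
        + ((q (X - Complex.I • Y) : ℂ) - q (X + Complex.I • Y)) * Complex.I) / 4) := fun X Y => by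
    have h : ∀ Z : K →L[ℂ] K, HasSum (fun n => ((‖Z (η n)‖ ^ 2 : ℝ) : ℂ)) ((q Z : ℂ)) := fun Z =>
      Complex.hasSum_ofReal.2 (hsq Z)
    have hall := (((h (X + Y)).sub (h (X - Y))).add
      (((h (X - Complex.I • Y)).sub (h (X + Complex.I • Y))).mul_right Complex.I)).div_const 4
    refine hall.congr_fun fun n => ?_
    rw [inner_eq_sum_norm_sq_div_four]
    simp
  have e : ∀ X Y : K →L[ℂ] K, ∀ v : K, ⟪v, (X * Y) v⟫_ℂ = ⟪star X v, Y v⟫_ℂ := fun X Y v => by
    rw [ContinuousLinearMap.star_eq_adjoint, ContinuousLinearMap.adjoint_inner_left]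
    rfl
  simp only [e]
  rw [(hpol (star S) T).tsum_eq, (hpol (star T) S).tsum_eq]
  have hsmul : ∀ X ∈ N, ∀ c : ℂ, c • X ∈ N := fun X hX c => N.toStarSubalgebra.smul_mem hX c
  have hsS : star S ∈ N := star_mem hS
  have hI : star Complex.I = -Complex.I := Complex.conj_I
  have hneg : ∀ (X : K →L[ℂ] K) (c : ℂ), ‖c‖ = 1 → q (c • X) = q X := fun X c hc1 =>
    (hsq (c • X)).unique (by simpa [norm_smul, hc1] using hsq X)
  have h1 : q (star S + T) = q (star T + S) := by
    rw [← hq _ (add_mem hsS hT), star_add, star_star, add_comm]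
  have h2 : q (star S - T) = q (star T - S) := by
    rw [← hq _ (sub_mem hsS hT), star_sub, star_star, ← hneg (star T - S) (-1) (by simp)]
    simp
  have h3 : q (star S - Complex.I • T) = q (star T - Complex.I • S) := by
    rw [← hq _ (sub_mem hsS (hsmul T hT Complex.I)), star_sub, star_star, star_smul, hI,
      ← hneg (star T - Complex.I • S) Complex.I (by simp), smul_sub, smul_smul,
      Complex.I_mul_I, neg_one_smul, neg_smul, sub_neg_eq_add, sub_neg_eq_add, add_comm]
  have h4 : q (star S + Complex.I • T) = q (star T + Complex.I • S) := by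
    rw [← hq _ (add_mem hsS (hsmul T hT Complex.I)), star_add, star_star, star_smul, hI,
      ← hneg (star T + Complex.I • S) (-Complex.I) (by simp), smul_add, smul_smul,
      neg_mul, Complex.I_mul_I, neg_neg, one_smul, neg_smul, add_comm]
  rw [h1, h2, h3, h4]

/-- A projection of finite trace gives a tracial state on its corner. -/
lemma exists_cornerState {ι : Type u} {ξ : ι → H} (hξ : IsFaithfulSemifiniteTrace M ξ)
    (hU : U.starProjection ∈ M) (hne : U.starProjection ≠ 0)
    (hfin : Summable fun i => ‖U.starProjection (ξ i)‖ ^ 2) :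
    ∃ η : ℕ → U, IsFaithfulNormalTracialState (cornerAlg U M) η := by
  set w : ι → U := fun i => U.orthogonalProjectionOnto (ξ i) with hw
  have hwn : ∀ i, ‖U.starProjection (ξ i)‖ = ‖w i‖ := fun i => rfl
  have hup : ∀ (S : U →L[ℂ] U) i, ‖up U S (ξ i)‖ = ‖S (w i)‖ := fun S i => rfl
  simp only [hwn] at hfin
  set s : Set ι := Function.support fun i => ‖w i‖ ^ 2
  have : Countable s := hfin.countable_support.to_subtype
  obtain ⟨e, he⟩ := exists_injective_nat s
  set g : ℕ → U := Function.extend e (fun i : s => w i) 0 with hg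
  have hs0 : ∀ i, i ∉ s → w i = 0 := fun i hi => by simpa [s] using hi
  set c2 := ∑' i, ‖w i‖ ^ 2 with hc2
  have hc : 0 < c2 := by
    refine lt_of_le_of_ne (tsum_nonneg fun i => sq_nonneg _) fun h => hne (hξ.2.1 _ hU fun i => ?_)
    have h1 := (hfin.hasSum_iff.2 h.symm)
    have h2 := (hasSum_zero_iff_of_nonneg fun i => sq_nonneg _).1 h1
    have h3 : w i = 0 := by simpa using congrFun h2 i
    rw [← norm_eq_zero, hwn, h3, norm_zero]
  set k : ℂ := (((√c2)⁻¹ : ℝ) : ℂ) with hk
  have hknorm : ‖k‖ = (√c2)⁻¹ := by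
    rw [hk, Complex.norm_real, Real.norm_of_nonneg (by positivity)]
  set η : ℕ → U := fun n => k • g n with hη
  -- the sums of squares over the corner
  have hval : ∀ S : U →L[ℂ] U, ∀ v : U, ‖S (k • v)‖ ^ 2 = c2⁻¹ * ‖S v‖ ^ 2 := fun S v => by
    rw [map_smul, norm_smul, hknorm, mul_pow, inv_pow, Real.sq_sqrt hc.le]
  have hsq : ∀ S : U →L[ℂ] U,
      HasSum (fun n => ‖S (η n)‖ ^ 2) (c2⁻¹ * ∑' i, ‖up U S (ξ i)‖ ^ 2) := fun S => by
    have hs : Summable fun i => ‖S (w i)‖ ^ 2 :=
      Summable.of_nonneg_of_le (fun i => sq_nonneg _)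
        (fun i => by rw [← mul_pow]; exact pow_le_pow_left₀ (norm_nonneg _) (S.le_opNorm _) 2)
        (hfin.mul_left (‖S‖ ^ 2))
    simp only [hη, hval, hup]
    exact (hasSum_extend_support U he hs0 (φ := fun v : U => ‖S v‖ ^ 2) (by simp) hs.hasSum).mul_left _
  set q : (U →L[ℂ] U) → ℝ := fun S => c2⁻¹ * ∑' i, ‖up U S (ξ i)‖ ^ 2
  have hq : ∀ S ∈ cornerAlg U M, q (star S) = q S := fun S hS => by
    have hs : Summable fun i => ‖up U S (ξ i)‖ ^ 2 := by
      simp only [hup]
      exact Summable.of_nonneg_of_le (fun i => sq_nonneg _)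
        (fun i => by rw [← mul_pow]; exact pow_le_pow_left₀ (norm_nonneg _) (S.le_opNorm _) 2)
        (hfin.mul_left (‖S‖ ^ 2))
    simp only [q, up_star, (hξ.1 _ ((mem_cornerAlg U hU).1 hS) hs).2]
  have htr := trace_comm (cornerAlg U M) hsq hq
  refine ⟨η, ?_, htr, fun S hS h0 => ?_⟩
  · have h := hsq 1
    rw [up_one] at h
    simp only [hwn, inv_mul_cancel₀ hc.ne', ← hc2] at h
    simpa using h
  · have hz : (fun n => ⟪η n, (star S * S) (η n)⟫_ℂ)
        = fun n => ((‖S (η n)‖ ^ 2 : ℝ) : ℂ) := funext fun n => by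
      rw [ContinuousLinearMap.star_eq_adjoint]
      show ⟪η n, ContinuousLinearMap.adjoint S (S (η n))⟫_ℂ = _
      rw [ContinuousLinearMap.adjoint_inner_right, inner_self_eq_norm_sq_to_K]
      simp
    rw [hz, (Complex.hasSum_ofReal.2 (hsq S)).tsum_eq, Complex.ofReal_eq_zero,
      mul_eq_zero, or_iff_right (inv_ne_zero hc.ne')] at h0
    have hM := (mem_cornerAlg U hU).1 hS
    have hs : Summable fun i => ‖up U S (ξ i)‖ ^ 2 := by
      simp only [hup]
      exact Summable.of_nonneg_of_le (fun i => sq_nonneg _)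
        (fun i => by rw [← mul_pow]; exact pow_le_pow_left₀ (norm_nonneg _) (S.le_opNorm _) 2)
        (hfin.mul_left (‖S‖ ^ 2))
    have hall := (hasSum_zero_iff_of_nonneg fun i => sq_nonneg _).1 (hs.hasSum_iff.2 h0)
    have hup0 : up U S = 0 := hξ.2.1 _ hM fun i => by simpa using congrFun hall i
    have h := congrArg (down U) hup0
    rw [down_up] at h
    rw [h]
    simp [down]

end Corner

end Vale.Agent.P078
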