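import Mathlib
import Vale.Agent.P078.Semi.Corner

/-!
# The part of a MASA spanned by projections of finite trace
-/

open scoped InnerProductSpace

namespace Vale.Agent.P078

universe u

variable {H : Type u} [NormedAddCommGroup H] [InnerProductSpace ℂ H] [CompleteSpace H]

namespace FinitePart

variable {A : StarSubalgebra ℂ (H →L[ℂ] H)} {M : VonNeumannAlgebra H} {ι : Type u} {ξ : ι → H}

lemma norm_le_one_of_proj {p : H →L[ℂ] H} (hp : IsStarProjection p) : ‖p‖ ≤ 1 := by
  obtain ⟨_, h⟩ := isStarProjection_iff_eq_starProjection_range.1 hp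
  rw [h]
  exact Submodule.starProjection_norm_le _

/-- Two commuting finite projections have a common finite upper bound. -/
lemma exists_upper (hA : IsMASA M A) {f g : H →L[ℂ] H} (hf : IsFiniteProj A ξ f)
    (hg : IsFiniteProj A ξ g) :
    ∃ j, IsFiniteProj A ξ j ∧ j * f = f ∧ j * g = g := by
  have hc : f * g = g * f := hA.2.1 _ hf.1 _ hg.1
  have hff : f * f = f := hf.2.1.isIdempotentElem.eq
  have hgg : g * g = g := hg.2.1.isIdempotentElem.eq
  have e1 : (1 - f) * g * f = 0 := by
    rw [mul_assoc, ← hc, ← mul_assoc, sub_mul, one_mul, hff, sub_self, zero_mul]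
  have hjf : (f + (1 - f) * g) * f = f := by rw [add_mul, hff, e1, add_zero]
  have hjg : (f + (1 - f) * g) * g = g := by
    rw [add_mul, mul_assoc, hgg, sub_mul, one_mul, add_sub_cancel]
  refine ⟨f + (1 - f) * g,
    ⟨add_mem hf.1 (mul_mem (sub_mem (one_mem A) hf.1) hg.1), ⟨?_, ?_⟩, ?_⟩, hjf, hjg⟩
  · show (f + (1 - f) * g) * (f + (1 - f) * g) = _
    rw [sub_mul, one_mul]
    rw [sub_mul, one_mul] at hjf hjg
    rw [mul_add, mul_sub, hjf, hjg, ← mul_assoc, hjf]
  · rw [IsSelfAdjoint, star_add, star_mul, star_sub, star_one, hf.2.1.isSelfAdjoint.star_eq,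
      hg.2.1.isSelfAdjoint.star_eq, mul_sub, mul_one, sub_mul, one_mul, hc]
  · refine Summable.of_nonneg_of_le (fun i => sq_nonneg _) (fun i => ?_)
      ((hf.2.2.mul_left 2).add (hg.2.2.mul_left 2))
    have h1 : ‖(f + (1 - f) * g) (ξ i)‖ ≤ ‖f (ξ i)‖ + ‖g (ξ i)‖ := by
      refine (norm_add_le _ _).trans (add_le_add le_rfl ?_)
      refine (((1 : H →L[ℂ] H) - f).le_opNorm _).trans (mul_le_of_le_one_left (norm_nonneg _) ?_)
      exact norm_le_one_of_proj hf.2.1.one_sub
    nlinarith [sq_nonneg (‖f (ξ i)‖ - ‖g (ξ i)‖), norm_nonneg ((f + (1 - f) * g) (ξ i))]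

/-- The vectors fixed by some finite projection. -/
def span (hA : IsMASA M A) (ξ : ι → H) : Submodule ℂ H where
  carrier := {v | ∃ f, IsFiniteProj A ξ f ∧ f v = v}
  zero_mem' := ⟨0, ⟨zero_mem A, IsStarProjection.zero _, by simp⟩, by simp⟩
  add_mem' := by
    rintro v w ⟨f, hf, hfv⟩ ⟨g, hg, hgw⟩
    obtain ⟨j, hj, hjf, hjg⟩ := exists_upper hA hf hg
    refine ⟨j, hj, ?_⟩
    have h1 : j v = v := by
      have e := congrArg (fun T : H →L[ℂ] H => T v) hjf
      simpa [hfv] using e
    have h2 : j w = w := by
      have e := congrArg (fun T : H →L[ℂ] H => T w) hjg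
      simpa [hgw] using e
    rw [map_add, h1, h2]
  smul_mem' := by
    rintro c v ⟨f, hf, hfv⟩
    exact ⟨f, hf, by rw [map_smul, hfv]⟩

lemma span_invariant (hA : IsMASA M A) {y : H →L[ℂ] H} (hy : ∀ f ∈ A, f * y = y * f) {v : H}
    (hv : v ∈ (span hA ξ).topologicalClosure) : y v ∈ (span hA ξ).topologicalClosure := by
  have h : Set.MapsTo y (span hA ξ : Set H) (span hA ξ : Set H) := by
    rintro w ⟨f, hf, hfw⟩
    refine ⟨f, hf, ?_⟩
    have e := congrArg (fun T : H →L[ℂ] H => T w) (hy f hf.1)
    simpa [hfw] using e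
  rw [← SetLike.mem_coe, Submodule.topologicalClosure_coe] at hv ⊢
  exact h.closure y.continuous hv

end FinitePart

open FinitePart in
/-- So-paving on the part of a MASA spanned by its projections of finite trace. -/
theorem finite_part_paving {ε : ℝ} {r : ℕ}
    (hpave : ∀ (K : Type u) [NormedAddCommGroup K] [InnerProductSpace ℂ K] [CompleteSpace K]
      (M : VonNeumannAlgebra K) (A : StarSubalgebra ℂ (K →L[ℂ] K)) (ξ : ℕ → K),
      IsMASA M A → IsFaithfulNormalTracialState M ξ →
      ∀ x ∈ M, IsSelfAdjoint x → SOPavable M A x ε r)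
    (hε : 0 ≤ ε) (hr : 0 < r)
    {M : VonNeumannAlgebra H} {A : StarSubalgebra ℂ (H →L[ℂ] H)} {ι : Type u} {ξ : ι → H}
    (hA : IsMASA M A) (hξ : IsFaithfulSemifiniteTrace M ξ) :
    ∃ z ∈ A, IsStarProjection z ∧
      (∀ f, IsFiniteProj A ξ f → f * z = f) ∧
      ∀ x ∈ M, IsSelfAdjoint x → ∀ (F : Finset H) (δ : ℝ), 0 < δ →
        ∃ (p : Fin r → H →L[ℂ] H) (a q : H →L[ℂ] H),
          (∀ i, p i ∈ A) ∧ (∀ i, IsStarProjection (p i)) ∧ (∀ i j, i ≠ j → p i * p j = 0) ∧
          ∑ i, p i = z ∧ a ∈ A ∧ IsSelfAdjoint a ∧ a * z = a ∧ ‖a‖ ≤ ‖x‖ ∧ q ∈ M ∧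
          IsStarProjection q ∧ q * z = q ∧ (∀ v ∈ F, ‖(z - q) v‖ < δ) ∧
          ‖q * ((∑ i, p i * x * p i) - a) * q‖ ≤ ε * ‖x‖ := by
  set Z := (span hA ξ).topologicalClosure with hZ
  set z := Z.starProjection with hz
  have hzP : IsStarProjection z := isStarProjection_starProjection
  have hzM : z ∈ M := by
    rw [VonNeumannAlgebra.IsStarProjection.mem_iff hzP]
    intro y hy
    rw [Submodule.range_starProjection, Module.End.mem_invtSubmodule]
    intro v hv
    exact span_invariant hA (fun f hf => VonNeumannAlgebra.mem_commutant_iff.1 hy f (hA.1 f hf)) hv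
  have hza : ∀ a ∈ A, z * a * z = a * z := fun a ha => by
    ext v
    exact Submodule.starProjection_eq_self_iff.2
      (span_invariant hA (fun f hf => hA.2.1 f hf a ha) (Submodule.starProjection_apply_mem Z v))
  have hzA : z ∈ A := hA.2.2 z hzM fun a ha => by
    have h := congrArg star (hza (star a) (star_mem ha))
    rw [star_mul, star_mul, star_mul, star_star, hzP.isSelfAdjoint.star_eq, ← mul_assoc] at h
    rw [← hza a ha, h]
  have hzf : ∀ f, IsFiniteProj A ξ f → z * f = f := fun f hf => by
    ext v
    exact Submodule.starProjection_eq_self_iff.2 (Submodule.le_topologicalClosure _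
      ⟨f, hf, congrArg (fun T : H →L[ℂ] H => T v) hf.2.1.isIdempotentElem.eq⟩)
  have hfz : ∀ f, IsFiniteProj A ξ f → f * z = f := fun f hf => by
    rw [hA.2.1 f hf.1 z hzA, hzf f hf]
  -- finitely many vectors are nearly fixed by one finite projection
  have happ : ∀ (F : Finset H) (δ : ℝ), 0 < δ →
      ∃ f, IsFiniteProj A ξ f ∧ ∀ v ∈ F, ‖(z - f) v‖ < δ := by
    intro F δ hδ
    classical
    induction F using Finset.induction_on with
    | empty => exact ⟨0, ⟨zero_mem A, IsStarProjection.zero _, by simp⟩, by simp⟩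
    | insert v F _ ih =>
      obtain ⟨f, hf, hfF⟩ := ih
      have hzv : z v ∈ closure ((span hA ξ) : Set H) := by
        rw [← Submodule.topologicalClosure_coe]
        exact Submodule.starProjection_apply_mem Z v
      obtain ⟨w, ⟨g, hg, hgw⟩, hd⟩ := Metric.mem_closure_iff.1 hzv (δ / 2) (half_pos hδ)
      obtain ⟨j, hj, hjf, hjg⟩ := exists_upper hA hf hg
      have hn : ∀ {p : H →L[ℂ] H}, IsStarProjection p → ∀ u, ‖p u‖ ≤ ‖u‖ := fun {p} hp u =>
        (p.le_opNorm u).trans (mul_le_of_le_one_left (norm_nonneg u)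
          (norm_le_one_of_proj hp))
      refine ⟨j, hj, fun u hu => ?_⟩
      rcases Finset.mem_insert.1 hu with rfl | hu
      · have hjw : j w = w := by
          have e := congrArg (fun T : H →L[ℂ] H => T w) hjg
          simpa [hgw] using e
        have e : (z - j) u = (z u - w) - j (z u - w) := by
          have e' : j (z u) = j u := congrArg (fun T : H →L[ℂ] H => T u) (hfz j hj)
          simp [map_sub, hjw, e']
        rw [dist_eq_norm] at hd
        rw [e]
        linarith [norm_sub_le (z u - w) (j (z u - w)), hn hj.2.1 (z u - w)]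
      · refine lt_of_le_of_lt ?_ (hfF u hu)
        have e : (1 - j) * (z - f) = z - j := by
          rw [sub_mul, one_mul, mul_sub, hfz j hj, hjf]
          abel
        rw [← e]
        exact hn hj.2.1.one_sub _
  refine ⟨z, hzA, hzP, hfz, fun x hx hxs F δ hδ => ?_⟩
  obtain ⟨f, hf, hfF⟩ := happ F (δ / 2) (half_pos hδ)
  classical
  set i0 : Fin r := ⟨0, hr⟩
  by_cases hf0 : f = 0
  · refine ⟨fun i => if i = i0 then z else 0, 0, 0, fun i => ?_, fun i => ?_, fun i j hij => ?_,
      by simp, zero_mem A, IsSelfAdjoint.zero _, zero_mul _, by simp, zero_mem M,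
      IsStarProjection.zero _, zero_mul _, fun v hv => ?_, ?_⟩
    · show (if i = i0 then z else 0) ∈ A
      split_ifs
      exacts [hzA, zero_mem A]
    · show IsStarProjection (if i = i0 then z else 0)
      split_ifs
      exacts [hzP, IsStarProjection.zero _]
    · show (if i = i0 then z else 0) * (if j = i0 then z else 0) = 0
      by_cases h1 : i = i0
      · rw [if_neg (fun h2 : j = i0 => hij (h1.trans h2.symm)), mul_zero]
      · rw [if_neg h1, zero_mul]
    · have h := hfF v hv
      rw [hf0, sub_zero] at h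
      rw [sub_zero]
      linarith
    · simpa using mul_nonneg hε (norm_nonneg x)
  · obtain ⟨_, hfU⟩ := isStarProjection_iff_eq_starProjection_range.1 hf.2.1
    set U := f.range with hU
    have hclosed : IsClosed (U : Set H) := U.orthogonal_orthogonal ▸ U.orthogonal.isClosed_orthogonal
    have : CompleteSpace U := hclosed.completeSpace_coe
    have hUA : U.starProjection ∈ A := by rw [← hfU]; exact hf.1
    have hUM := hA.1 _ hUA
    obtain ⟨η, hη⟩ := Corner.exists_cornerState U hξ hUM (by rw [← hfU]; exact hf0)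
      (by rw [← hfU]; exact hf.2.2)
    have hxs' : IsSelfAdjoint (Corner.down U x) := by
      rw [IsSelfAdjoint, ← Corner.down_star, hxs.star_eq]
    obtain ⟨p, a, q, hp, ha, has, han, hq, hqP, hqF, hnorm⟩ :=
      hpave U _ _ η (Corner.isMASA_corner U hA hUA) hη _ (Corner.down_mem_cornerAlg U hUM hx) hxs'
        (F.image U.orthogonalProjectionOnto) (δ / 2) (half_pos hδ)
    obtain ⟨hpA, hpP, hpo, hp1⟩ := hp
    have hupz : ∀ S, Corner.up U S * z = Corner.up U S := fun S => by
      conv_lhs => rw [← Corner.up_mul_proj U S, ← hfU, mul_assoc, hfz f hf, hfU,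
        Corner.up_mul_proj]
    have hzup : ∀ S, z * Corner.up U S = Corner.up U S := fun S => by
      conv_lhs => rw [← Corner.proj_mul_up U S, ← hfU, ← mul_assoc, hzf f hf, hfU,
        Corner.proj_mul_up]
    have hupf : ∀ S, Corner.up U S * (z - f) = 0 := fun S => by
      rw [mul_sub, hupz, hfU, Corner.up_mul_proj, sub_self]
    have hfup : ∀ S, (z - f) * Corner.up U S = 0 := fun S => by
      rw [sub_mul, hzup, hfU, Corner.proj_mul_up, sub_self]
    have hd : IsStarProjection (z - f) := by
      refine ⟨?_, hzP.isSelfAdjoint.sub hf.2.1.isSelfAdjoint⟩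
      rw [IsIdempotentElem, mul_sub, sub_mul, sub_mul, hzP.isIdempotentElem.eq, hfz f hf,
        hzf f hf, hf.2.1.isIdempotentElem.eq]
      simp
    set P : Fin r → H →L[ℂ] H := fun i => Corner.up U (p i) + if i = i0 then z - f else 0 with hP
    have hqP' : ∀ i, Corner.up U q * P i = Corner.up U (q * p i) := fun i => by
      simp only [hP, mul_add, Corner.up_mul]
      split_ifs
      · rw [hupf, add_zero]
      · rw [mul_zero, add_zero]
    have hPq' : ∀ i, P i * Corner.up U q = Corner.up U (p i * q) := fun i => by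
      simp only [hP, add_mul, Corner.up_mul]
      split_ifs
      · rw [hfup, add_zero]
      · rw [zero_mul, add_zero]
    refine ⟨P, Corner.up U a, Corner.up U q, fun i => ?_, fun i => ?_, fun i j hij => ?_, ?_,
      ha, ?_, hupz a, ?_, (Corner.mem_cornerAlg U hUM).1 hq, Corner.isStarProjection_up U hqP,
      hupz q, fun v hv => ?_, ?_⟩
    · simp only [hP]
      refine add_mem (hpA i) ?_
      split_ifs
      exacts [sub_mem hzA hf.1, zero_mem A]
    · simp only [hP]
      split_ifs
      · exact (Corner.isStarProjection_up U (hpP i)).add hd (hupf _)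
      · rw [add_zero]; exact Corner.isStarProjection_up U (hpP i)
    · simp only [hP]
      have h0 : Corner.up U (p i) * Corner.up U (p j) = 0 := by
        rw [← Corner.up_mul, hpo i j hij, Corner.up_zero]
      by_cases h1 : i = i0
      · rw [if_pos h1, if_neg (fun h2 : j = i0 => hij (h1.trans h2.symm)), add_zero, add_mul, h0,
          hfup, add_zero]
      · rw [if_neg h1, add_zero, mul_add, h0, zero_add]
        split_ifs
        exacts [hupf _, mul_zero _]
    · simp only [hP, Finset.sum_add_distrib, ← Corner.up_sum, hp1, Corner.up_one,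
        Finset.sum_ite_eq', Finset.mem_univ, if_true]
      rw [show U.starProjection = f from hfU.symm, add_sub_cancel]
    · rw [IsSelfAdjoint, ← Corner.up_star, has.star_eq]
    · exact (Corner.norm_up_le U a).trans (han.trans (Corner.norm_down_le U x))
    · have h1 := hqF _ (Finset.mem_image_of_mem _ hv)
      have h2 : ‖(f - Corner.up U q) v‖ < δ / 2 := by
        rw [hfU, ← Corner.up_one U, ← Corner.up_sub]
        exact h1
      have e : (z - Corner.up U q) v = (z - f) v + (f - Corner.up U q) v := by simp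
      rw [e]
      linarith [norm_add_le ((z - f) v) ((f - Corner.up U q) v), hfF v hv]
    · have e : Corner.up U q * ((∑ i, P i * x * P i) - Corner.up U a) * Corner.up U q
          = Corner.up U (q * ((∑ i, p i * Corner.down U x * p i) - a) * q) := by
        rw [mul_sub, sub_mul, mul_sub q, sub_mul, Corner.up_sub, Finset.mul_sum, Finset.sum_mul,
          Finset.mul_sum, Finset.sum_mul, Corner.up_sum, Corner.up_mul, Corner.up_mul]
        congr 1
        refine Finset.sum_congr rfl fun i _ => ?_
        calc Corner.up U q * (P i * x * P i) * Corner.up U q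
            = (Corner.up U q * P i) * x * (P i * Corner.up U q) := by simp only [mul_assoc]
          _ = Corner.up U (q * p i) * U.starProjection * x
                * (U.starProjection * Corner.up U (p i * q)) := by
              rw [hqP', hPq', Corner.up_mul_proj, Corner.proj_mul_up]
          _ = Corner.up U (q * p i) * Corner.up U (Corner.down U x) * Corner.up U (p i * q) := by
              simp only [Corner.up_down, mul_assoc]
          _ = _ := by simp only [← Corner.up_mul, mul_assoc]
      rw [e]
      exact (Corner.norm_up_le U _).trans (hnorm.trans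
        (mul_le_mul_of_nonneg_left (Corner.norm_down_le U x) hε))

end Vale.Agent.P078
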