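import Mathlib
import Vale.Agent.P078.Semi.Defs
import Vale.Agent.P078.Semi.Spectral

/-!
# The space of square integrable elements of a semifinite trace
-/

open scoped InnerProductSpace ENNReal
open ContinuousLinearMap

namespace Vale.Agent.P078

universe u

variable {H : Type u} [NormedAddCommGroup H] [InnerProductSpace ℂ H] [CompleteSpace H]

namespace Semi

variable {ι : Type u}

/-- `x` is square summable at the vectors `ξ`. -/
def HS (ξ : ι → H) (x : H →L[ℂ] H) : Prop := Summable fun i => ‖x (ξ i)‖ ^ 2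

variable {ξ : ι → H} {x y a : H →L[ℂ] H}

lemma HS.memℓp (hx : HS ξ x) : Memℓp (fun i => x (ξ i)) 2 := by
  refine memℓp_gen ?_
  simpa [HS] using hx

open Classical in
/-- The vector of `x` in the square summable families. -/
noncomputable def jv (ξ : ι → H) (x : H →L[ℂ] H) : lp (fun _ : ι => H) 2 :=
  if h : Memℓp (fun i => x (ξ i)) 2 then ⟨_, h⟩ else 0

lemma jv_apply (hx : HS ξ x) (i : ι) : jv ξ x i = x (ξ i) := by
  rw [jv, dif_pos hx.memℓp]

lemma hs_iff_memℓp : HS ξ x ↔ Memℓp (fun i => x (ξ i)) 2 := by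
  refine ⟨HS.memℓp, fun h => ?_⟩
  simpa [HS] using h.summable (by norm_num)

lemma HS.add (hx : HS ξ x) (hy : HS ξ y) : HS ξ (x + y) :=
  hs_iff_memℓp.2 (hx.memℓp.add hy.memℓp)

lemma HS.smul (hx : HS ξ x) (c : ℂ) : HS ξ (c • x) :=
  hs_iff_memℓp.2 (hx.memℓp.const_smul c)

lemma hs_zero : HS ξ (0 : H →L[ℂ] H) := by simp [HS, summable_zero]

lemma HS.sub (hx : HS ξ x) (hy : HS ξ y) : HS ξ (x - y) :=
  hs_iff_memℓp.2 (hx.memℓp.sub hy.memℓp)

lemma HS.sum {κ : Type*} {s : Finset κ} {f : κ → H →L[ℂ] H} (h : ∀ k ∈ s, HS ξ (f k)) :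
    HS ξ (∑ k ∈ s, f k) := by
  classical
  induction s using Finset.induction_on with
  | empty => simpa using hs_zero
  | insert k s hk ih =>
    rw [Finset.sum_insert hk]
    exact (h k (Finset.mem_insert_self _ _)).add (ih fun l hl => h l (Finset.mem_insert_of_mem hl))

lemma jv_zero : jv ξ (0 : H →L[ℂ] H) = 0 := by
  apply lp.ext
  funext i
  rw [jv_apply hs_zero]
  simp

lemma jv_add (hx : HS ξ x) (hy : HS ξ y) : jv ξ (x + y) = jv ξ x + jv ξ y := by
  apply lp.ext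
  funext i
  rw [jv_apply (hx.add hy), lp.coeFn_add, Pi.add_apply, jv_apply hx, jv_apply hy, add_apply]

lemma jv_sub (hx : HS ξ x) (hy : HS ξ y) : jv ξ (x - y) = jv ξ x - jv ξ y := by
  apply lp.ext
  funext i
  rw [jv_apply (hx.sub hy), lp.coeFn_sub, Pi.sub_apply, jv_apply hx, jv_apply hy, sub_apply]

lemma jv_smul (hx : HS ξ x) (c : ℂ) : jv ξ (c • x) = c • jv ξ x := by
  apply lp.ext
  funext i
  rw [jv_apply (hx.smul c), lp.coeFn_smul, Pi.smul_apply, jv_apply hx, smul_apply]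

lemma jv_sum {κ : Type*} {s : Finset κ} {f : κ → H →L[ℂ] H} (h : ∀ k ∈ s, HS ξ (f k)) :
    jv ξ (∑ k ∈ s, f k) = ∑ k ∈ s, jv ξ (f k) := by
  classical
  induction s using Finset.induction_on with
  | empty => simpa using jv_zero
  | insert k s hk ih =>
    have h' : ∀ l ∈ s, HS ξ (f l) := fun l hl => h l (Finset.mem_insert_of_mem hl)
    rw [Finset.sum_insert hk, Finset.sum_insert hk, jv_add (h k (Finset.mem_insert_self _ _))
      (HS.sum h'), ih h']

lemma hasSum_inner_jv (hx : HS ξ x) (hy : HS ξ y) :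
    HasSum (fun i => ⟪x (ξ i), y (ξ i)⟫_ℂ) ⟪jv ξ x, jv ξ y⟫_ℂ := by
  have h := lp.hasSum_inner (𝕜 := ℂ) (jv ξ x) (jv ξ y)
  simpa [jv_apply hx, jv_apply hy] using h

lemma norm_sq_jv (hx : HS ξ x) : ‖jv ξ x‖ ^ 2 = ∑' i, ‖x (ξ i)‖ ^ 2 := by
  have h := (hasSum_inner_jv hx hx).mapL Complex.reCLM
  have e : (fun i => Complex.reCLM ⟪x (ξ i), x (ξ i)⟫_ℂ) = fun i => ‖x (ξ i)‖ ^ 2 := by
    funext i
    exact inner_self_eq_norm_sq (𝕜 := ℂ) _
  rw [e] at h
  rw [h.tsum_eq]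
  exact (inner_self_eq_norm_sq (𝕜 := ℂ) _).symm

lemma norm_apply_le_jv (hx : HS ξ x) (i : ι) : ‖x (ξ i)‖ ≤ ‖jv ξ x‖ := by
  rw [← jv_apply hx i]
  exact lp.norm_apply_le_norm (by norm_num) _ i

lemma hs_of_le (hx : HS ξ x) {C : ℝ} (h : ∀ i, ‖y (ξ i)‖ ≤ C * ‖x (ξ i)‖) : HS ξ y := by
  refine Summable.of_nonneg_of_le (fun i => sq_nonneg _) (fun i => ?_) (Summable.mul_left (C ^ 2) hx)
  rw [← mul_pow]
  exact pow_le_pow_left₀ (norm_nonneg _) (h i) 2

lemma norm_jv_le_of_le (hx : HS ξ x) {C : ℝ} (hC : 0 ≤ C)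
    (h : ∀ i, ‖y (ξ i)‖ ≤ C * ‖x (ξ i)‖) : ‖jv ξ y‖ ≤ C * ‖jv ξ x‖ := by
  refine le_of_pow_le_pow_left₀ two_ne_zero (by positivity) ?_
  rw [norm_sq_jv (hs_of_le hx h), mul_pow, norm_sq_jv hx, ← tsum_mul_left]
  refine Summable.tsum_le_tsum (fun i => ?_) (hs_of_le hx h) (Summable.mul_left (C ^ 2) hx)
  rw [← mul_pow]
  exact pow_le_pow_left₀ (norm_nonneg _) (h i) 2

lemma HS.mul_left (hx : HS ξ x) (a : H →L[ℂ] H) : HS ξ (a * x) :=
  hs_of_le hx fun i => a.le_opNorm (x (ξ i))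

lemma norm_jv_mul_left (hx : HS ξ x) (a : H →L[ℂ] H) : ‖jv ξ (a * x)‖ ≤ ‖a‖ * ‖jv ξ x‖ :=
  norm_jv_le_of_le hx (norm_nonneg a) fun i => a.le_opNorm (x (ξ i))

lemma inner_mul_left (hx : HS ξ x) (hy : HS ξ y) (a : H →L[ℂ] H) :
    ⟪jv ξ (a * x), jv ξ y⟫_ℂ = ⟪jv ξ x, jv ξ (star a * y)⟫_ℂ := by
  refine (hasSum_inner_jv (hx.mul_left a) hy).unique ?_
  convert hasSum_inner_jv hx (hy.mul_left (star a)) using 2 with i
  rw [star_eq_adjoint]
  exact (adjoint_inner_right a (x (ξ i)) (y (ξ i))).symm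

variable {M : VonNeumannAlgebra H}

lemma HS.star (hξ : IsFaithfulSemifiniteTrace M ξ) (hxM : x ∈ M) (hx : HS ξ x) :
    HS ξ (star x) := (hξ.1 x hxM hx).1

lemma norm_jv_star (hξ : IsFaithfulSemifiniteTrace M ξ) (hxM : x ∈ M) (hx : HS ξ x) :
    ‖jv ξ (star x)‖ = ‖jv ξ x‖ := by
  refine (pow_left_inj₀ (norm_nonneg _) (norm_nonneg _) two_ne_zero).1 ?_
  rw [norm_sq_jv (hx.star hξ hxM), norm_sq_jv hx]
  exact (hξ.1 x hxM hx).2

lemma norm_star_combination (hξ : IsFaithfulSemifiniteTrace M ξ) (hxM : x ∈ M) (hx : HS ξ x)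
    (hyM : y ∈ M) (hy : HS ξ y) (c : ℂ) :
    ‖jv ξ (star x) + star c • jv ξ (star y)‖ = ‖jv ξ x + c • jv ξ y‖ := by
  have hcy : c • y ∈ M := M.toStarSubalgebra.smul_mem hyM c
  rw [← jv_smul hy, ← jv_smul (hy.star hξ hyM), ← jv_add hx (hy.smul c),
    ← jv_add (hx.star hξ hxM) ((hy.star hξ hyM).smul _), ← star_smul, ← star_add]
  exact norm_jv_star hξ (add_mem hxM hcy) (hx.add (hy.smul c))

lemma inner_star (hξ : IsFaithfulSemifiniteTrace M ξ) (hxM : x ∈ M) (hx : HS ξ x) (hyM : y ∈ M)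
    (hy : HS ξ y) : ⟪jv ξ (star x), jv ξ (star y)⟫_ℂ = ⟪jv ξ y, jv ξ x⟫_ℂ := by
  have h1 := norm_star_combination hξ hxM hx hyM hy 1
  have h2 := norm_star_combination hξ hxM hx hyM hy (-1)
  have h3 := norm_star_combination hξ hxM hx hyM hy Complex.I
  have h4 := norm_star_combination hξ hxM hx hyM hy (-Complex.I)
  simp only [star_one, one_smul, star_neg, neg_smul, neg_neg, ← sub_eq_add_neg,
    Complex.star_def, Complex.conj_I] at h1 h2 h3 h4
  rw [← inner_conj_symm (jv ξ y) (jv ξ x), inner_eq_sum_norm_sq_div_four,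
    inner_eq_sum_norm_sq_div_four (jv ξ x)]
  simp only [RCLike.I_to_complex] at *
  rw [h1, h2, h3, h4]
  simp only [map_div₀, map_add, map_mul, map_sub, map_pow, RCLike.conj_ofReal, Complex.conj_I,
    map_ofNat]
  ring

lemma HS.mul_right (hξ : IsFaithfulSemifiniteTrace M ξ) (hxM : x ∈ M) (hx : HS ξ x)
    (haM : a ∈ M) : HS ξ (x * a) := by
  have h := ((hx.star hξ hxM).mul_left (Star.star a)).star hξ
    (mul_mem (star_mem haM) (star_mem hxM))
  rwa [star_mul, star_star, star_star] at h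

lemma norm_jv_mul_right (hξ : IsFaithfulSemifiniteTrace M ξ) (hxM : x ∈ M) (hx : HS ξ x)
    (haM : a ∈ M) : ‖jv ξ (x * a)‖ ≤ ‖a‖ * ‖jv ξ x‖ := by
  have h1 := norm_jv_star hξ (mul_mem (star_mem haM) (star_mem hxM))
    ((hx.star hξ hxM).mul_left (star a))
  rw [star_mul, star_star, star_star] at h1
  rw [h1, ← norm_jv_star hξ hxM hx, ← norm_star a]
  exact norm_jv_mul_left (hx.star hξ hxM) _

lemma inner_mul_right (hξ : IsFaithfulSemifiniteTrace M ξ) (hxM : x ∈ M) (hx : HS ξ x)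
    (hyM : y ∈ M) (hy : HS ξ y) (haM : a ∈ M) :
    ⟪jv ξ (x * a), jv ξ y⟫_ℂ = ⟪jv ξ x, jv ξ (y * star a)⟫_ℂ := by
  rw [← inner_star hξ hyM hy (mul_mem hxM haM) (hx.mul_right hξ hxM haM),
    ← inner_star hξ (mul_mem hyM (star_mem haM)) (hy.mul_right hξ hyM (star_mem haM)) hxM hx,
    star_mul, star_mul, star_star]
  rw [inner_mul_left (hy.star hξ hyM) (hx.star hξ hxM) a]

lemma eq_zero_of_jv (hξ : IsFaithfulSemifiniteTrace M ξ) (hxM : x ∈ M) (hx : HS ξ x)
    (h : jv ξ x = 0) : x = 0 :=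
  hξ.2.1 x hxM fun i => by rw [← jv_apply hx i, h]; rfl

/-- The fundamental identity: `‖p f x g p‖₂² = ⟨x (g p g), (f p f) x⟩`. -/
lemma inner_sandwich (hξ : IsFaithfulSemifiniteTrace M ξ) {p f g : H →L[ℂ] H}
    (hp : IsStarProjection p) (hf : IsStarProjection f) (hg : IsStarProjection g) (hpM : p ∈ M)
    (hfM : f ∈ M) (hgM : g ∈ M) (hpHS : HS ξ p) (hxM : x ∈ M) :
    ⟪jv ξ (p * f * x * g * p), jv ξ (p * f * x * g * p)⟫_ℂ
      = ⟪jv ξ (x * (g * p * g)), jv ξ (f * p * f * x)⟫_ℂ := by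
  have hgp : HS ξ (g * p) := hpHS.mul_left g
  set u := x * (g * p) with hu_def
  have hu : HS ξ u := hgp.mul_left x
  have huM : u ∈ M := mul_mem hxM (mul_mem hgM hpM)
  set w := star x * (f * p * f * x) with hw_def
  have hfpfM : f * p * f ∈ M := mul_mem (mul_mem hfM hpM) hfM
  have hfpf : HS ξ (f * p * f) :=
    (hpHS.mul_left f).mul_right hξ (mul_mem hfM hpM) hfM
  have hfpfx : HS ξ (f * p * f * x) := hfpf.mul_right hξ hfpfM hxM
  have hw : HS ξ w := hfpfx.mul_left _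
  have hwM : w ∈ M := mul_mem (star_mem hxM) (mul_mem hfpfM hxM)
  have e1 : p * f * x * g * p = (p * f) * u := by rw [hu_def]; noncomm_ring
  rw [e1, inner_mul_left hu (hu.mul_left _)]
  have e2 : star (p * f) * ((p * f) * u) = (f * p * f * x) * (g * p) := by
    rw [hu_def, star_mul, hf.isSelfAdjoint.star_eq, hp.isSelfAdjoint.star_eq]
    have : f * p * (p * f) = f * p * f := by
      rw [mul_assoc f p, ← mul_assoc p p, hp.isIdempotentElem.eq, mul_assoc]
    rw [← mul_assoc (f * p), this]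
    noncomm_ring
  rw [e2, hu_def, inner_mul_left hgp (hfpfx.mul_right hξ (mul_mem hfpfM hxM) (mul_mem hgM hpM))]
  have e3 : star x * (f * p * f * x * (g * p)) = (w * g) * p := by
    rw [hw_def]; noncomm_ring
  rw [e3]
  have hwg : HS ξ (w * g) := hw.mul_right hξ hwM hgM
  have e4 : ⟪jv ξ (g * p), jv ξ (w * g * p)⟫_ℂ = ⟪jv ξ (g * p * p), jv ξ (w * g)⟫_ℂ := by
    rw [inner_mul_right hξ (mul_mem hgM hpM) hgp (mul_mem hwM hgM) hwg hpM,
      hp.isSelfAdjoint.star_eq]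
  rw [e4, mul_assoc g p p, hp.isIdempotentElem.eq]
  have e5 : ⟪jv ξ (g * p * g), jv ξ w⟫_ℂ = ⟪jv ξ (g * p), jv ξ (w * g)⟫_ℂ := by
    rw [inner_mul_right hξ (mul_mem hgM hpM) hgp hwM hw hgM, hg.isSelfAdjoint.star_eq]
  rw [← e5, hw_def, inner_mul_left (hgp.mul_right hξ (mul_mem hgM hpM) hgM) hfpfx x]

/-- Vectors at which bounded elements of `M` are small as soon as they are small at all `ξ i`. -/
def smallSub (M : VonNeumannAlgebra H) (ξ : ι → H) (C : ℝ) : Submodule ℂ H where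
  carrier := {v | ∀ δ > 0, ∃ δ' > 0, ∀ z ∈ M, ‖z‖ ≤ C → (∀ i, ‖z (ξ i)‖ ≤ δ') → ‖z v‖ ≤ δ}
  zero_mem' := fun δ hδ => ⟨1, one_pos, fun z _ _ _ => by simpa using hδ.le⟩
  add_mem' := by
    intro v w hv hw δ hδ
    obtain ⟨a, ha, hva⟩ := hv (δ / 2) (by positivity)
    obtain ⟨b, hb, hwb⟩ := hw (δ / 2) (by positivity)
    refine ⟨min a b, lt_min ha hb, fun z hz hC hs => ?_⟩
    rw [map_add]
    refine (norm_add_le _ _).trans ?_
    linarith [hva z hz hC fun i => (hs i).trans (min_le_left _ _),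
      hwb z hz hC fun i => (hs i).trans (min_le_right _ _)]
  smul_mem' := by
    intro c v hv δ hδ
    obtain ⟨a, ha, hva⟩ := hv (δ / (‖c‖ + 1)) (by positivity)
    refine ⟨a, ha, fun z hz hC hs => ?_⟩
    rw [map_smul, norm_smul]
    refine (mul_le_mul (le_add_of_nonneg_right zero_le_one) (hva z hz hC hs) (norm_nonneg _)
      (by positivity)).trans_eq ?_
    field_simp

lemma isClosed_smallSub (C : ℝ) : IsClosed (smallSub M ξ C : Set H) := by
  rw [← closure_subset_iff_isClosed]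
  intro v hv δ hδ
  obtain ⟨w, hw, hd⟩ := Metric.mem_closure_iff.1 hv (δ / (2 * (|C| + 1))) (by positivity)
  obtain ⟨a, ha, hwa⟩ := hw (δ / 2) (by positivity)
  refine ⟨a, ha, fun z hz hC hs => ?_⟩
  have h1 : ‖z (v - w)‖ ≤ δ / 2 := by
    refine (z.le_opNorm _).trans ?_
    have hd' : ‖v - w‖ ≤ δ / (2 * (|C| + 1)) := by rw [← dist_eq_norm]; exact hd.le
    refine (mul_le_mul (hC.trans ((le_abs_self C).trans (le_add_of_nonneg_right zero_le_one)))
      hd' (norm_nonneg _) (by positivity)).trans_eq ?_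
    field_simp
  have h2 := hwa z hz hC hs
  have h3 : z v = z (v - w) + z w := by rw [map_sub, sub_add_cancel]
  rw [h3]
  linarith [norm_add_le (z (v - w)) (z w)]

/-- The span of the vectors `y (ξ i)`, `y` in the commutant. -/
def commSpan (M : VonNeumannAlgebra H) (ξ : ι → H) : Submodule ℂ H :=
  Submodule.span ℂ {v | ∃ y ∈ M.commutant, ∃ i, y (ξ i) = v}

lemma commSpan_le_smallSub (C : ℝ) : commSpan M ξ ≤ smallSub M ξ C := by
  rw [commSpan, Submodule.span_le]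
  rintro v ⟨y, hy, i, rfl⟩ δ hδ
  refine ⟨δ / (‖y‖ + 1), by positivity, fun z hz _ hs => ?_⟩
  have h1 : z (y (ξ i)) = y (z (ξ i)) :=
    congrArg (fun T : H →L[ℂ] H => T (ξ i)) (VonNeumannAlgebra.mem_commutant_iff.1 hy z hz)
  rw [h1]
  refine (y.le_opNorm _).trans ?_
  refine (mul_le_mul (le_add_of_nonneg_right zero_le_one) (hs i) (norm_nonneg _)
    (by positivity)).trans_eq ?_
  field_simp

lemma commSpan_closure_eq_top (hξ : IsFaithfulSemifiniteTrace M ξ) :
    (commSpan M ξ).topologicalClosure = ⊤ := by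
  set K := (commSpan M ξ).topologicalClosure with hK
  have hmem : K.starProjection ∈ M := by
    rw [VonNeumannAlgebra.IsStarProjection.mem_iff isStarProjection_starProjection]
    intro y hy
    rw [Submodule.range_starProjection, Module.End.mem_invtSubmodule]
    intro v hv
    have hmap : Set.MapsTo y (commSpan M ξ : Set H) (commSpan M ξ : Set H) := by
      intro w hw
      induction hw using Submodule.span_induction with
      | mem w hw =>
        obtain ⟨z, hz, n, rfl⟩ := hw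
        exact Submodule.subset_span ⟨y * z, mul_mem hy hz, n, rfl⟩
      | zero => simp
      | add a b _ _ ha hb =>
        rw [map_add]
        exact Submodule.add_mem _ ha hb
      | smul c a _ ha =>
        rw [map_smul]
        exact Submodule.smul_mem _ c ha
    rw [hK, ← SetLike.mem_coe, Submodule.topologicalClosure_coe] at hv
    show y v ∈ K
    rw [hK, ← SetLike.mem_coe, Submodule.topologicalClosure_coe]
    exact hmap.closure y.continuous hv
  have hzero : ∀ i, (1 - K.starProjection) (ξ i) = 0 := fun i => by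
    have hi : ξ i ∈ K := (commSpan M ξ).le_topologicalClosure
      (Submodule.subset_span ⟨1, one_mem _, i, rfl⟩)
    simp [K.starProjection_eq_self_iff.2 hi]
  have h1 : 1 - K.starProjection = 0 := hξ.2.1 _ (sub_mem (one_mem M) hmem) hzero
  rw [eq_top_iff]
  intro v _
  rw [← Submodule.starProjection_eq_self_iff (K := K), ← sub_eq_zero.1 h1]
  rfl

/-- Bounded elements of `M` which are small in `L²` are small at every vector of a finite set. -/
lemma small_at (hξ : IsFaithfulSemifiniteTrace M ξ) (C : ℝ) (F : Finset H) {δ : ℝ} (hδ : 0 < δ) :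
    ∃ δ' > 0, ∀ z ∈ M, ‖z‖ ≤ C → HS ξ z → ‖jv ξ z‖ ≤ δ' → ∀ v ∈ F, ‖z v‖ ≤ δ := by
  classical
  induction F using Finset.induction_on with
  | empty => exact ⟨1, one_pos, by simp⟩
  | insert v F _ ih =>
    obtain ⟨a, ha, hs⟩ := ih
    have h : (commSpan M ξ).topologicalClosure ≤ smallSub M ξ C :=
      Submodule.topologicalClosure_minimal _ (commSpan_le_smallSub C) (isClosed_smallSub C)
    rw [commSpan_closure_eq_top hξ] at h
    obtain ⟨b, hb, hv⟩ := h (Submodule.mem_top (x := v)) δ hδ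
    refine ⟨min a b, lt_min ha hb, fun z hz h1 h2 h3 w hw => ?_⟩
    rcases Finset.mem_insert.1 hw with rfl | hw
    · exact hv z hz h1 fun i =>
        (norm_apply_le_jv h2 i).trans (h3.trans (min_le_right _ _))
    · exact hs z hz h1 h2 (h3.trans (min_le_left _ _)) w hw

end Semi

end Vale.Agent.P078
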