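import Mathlib
import Vale.Agent.P078.Semi.L2

/-!
# Finite partitions inside a MASA and their pinchings
-/

open scoped InnerProductSpace
open ContinuousLinearMap

namespace Vale.Agent.P078

universe u

variable {H : Type u} [NormedAddCommGroup H] [InnerProductSpace ℂ H] [CompleteSpace H]

namespace Semi

/-- A finite partition of `e` by projections in `A`. -/
structure Pn (A : StarSubalgebra ℂ (H →L[ℂ] H)) (e : H →L[ℂ] H) where
  /-- number of pieces -/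
  n : ℕ
  /-- pieces -/
  f : Fin n → H →L[ℂ] H
  mem : ∀ i, f i ∈ A
  proj : ∀ i, IsStarProjection (f i)
  orth : ∀ i j, i ≠ j → f i * f j = 0
  sum_eq : ∑ i, f i = e

variable {A : StarSubalgebra ℂ (H →L[ℂ] H)} {e : H →L[ℂ] H}

namespace Pn

variable (Q : Pn A e)

lemma f_mul_e (i : Fin Q.n) : Q.f i * e = Q.f i := by
  conv_lhs => arg 2; rw [← Q.sum_eq]
  rw [Finset.mul_sum, Finset.sum_eq_single i]
  · exact (Q.proj i).isIdempotentElem.eq
  · exact fun j _ hj => Q.orth i j (Ne.symm hj)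
  · simp

lemma e_mul_f (i : Fin Q.n) : e * Q.f i = Q.f i := by
  conv_lhs => arg 1; rw [← Q.sum_eq]
  rw [Finset.sum_mul, Finset.sum_eq_single i]
  · exact (Q.proj i).isIdempotentElem.eq
  · exact fun j _ hj => Q.orth j i hj
  · simp

lemma e_mem (Q : Pn A e) : e ∈ A := by rw [← Q.sum_eq]; exact sum_mem fun i _ => Q.mem i

lemma e_proj (Q : Pn A e) : IsStarProjection e := by
  refine ⟨?_, ?_⟩
  · show e * e = e
    conv_lhs => arg 1; rw [← Q.sum_eq]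
    rw [Finset.sum_mul]
    simp_rw [Q.f_mul_e]
    exact Q.sum_eq
  · show star e = e
    rw [← Q.sum_eq, star_sum]
    exact Finset.sum_congr rfl fun i _ => (Q.proj i).isSelfAdjoint.star_eq

/-- The pinching of `x`. -/
noncomputable def T (Q : Pn A e) (x : H →L[ℂ] H) : H →L[ℂ] H := ∑ i, Q.f i * x * Q.f i

instance : Preorder (Pn A e) where
  le Q Q' := ∀ j, ∃ i, Q'.f j * Q.f i = Q'.f j
  le_refl Q j := ⟨j, (Q.proj j).isIdempotentElem.eq⟩
  le_trans P Q R hPQ hQR k := by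
    obtain ⟨j, hj⟩ := hQR k
    obtain ⟨i, hi⟩ := hPQ j
    refine ⟨i, ?_⟩
    rw [← hj, mul_assoc, hi]

lemma le_def' {Q Q' : Pn A e} : Q ≤ Q' ↔ ∀ j, ∃ i, Q'.f j * Q.f i = Q'.f j := Iff.rfl

/-- Common refinement. -/
noncomputable def common (hA : ∀ a ∈ A, ∀ b ∈ A, a * b = b * a) (Q Q' : Pn A e) : Pn A e where
  n := Q.n * Q'.n
  f k := Q.f (finProdFinEquiv.symm k).1 * Q'.f (finProdFinEquiv.symm k).2
  mem k := mul_mem (Q.mem _) (Q'.mem _)
  proj k := (Q.proj _).mul (Q'.proj _) (hA _ (Q.mem _) _ (Q'.mem _))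
  orth k l hkl := by
    set a := finProdFinEquiv.symm k
    set b := finProdFinEquiv.symm l
    have hab : a ≠ b := fun h => hkl (finProdFinEquiv.symm.injective h)
    have hr : Q.f a.1 * Q'.f a.2 * (Q.f b.1 * Q'.f b.2)
        = (Q.f a.1 * Q.f b.1) * (Q'.f a.2 * Q'.f b.2) := by
      rw [mul_assoc, ← mul_assoc (Q'.f a.2), hA _ (Q'.mem a.2) _ (Q.mem b.1)]
      noncomm_ring
    rw [hr]
    by_cases h : a.1 = b.1
    · rw [Q'.orth a.2 b.2 fun h2 => hab (Prod.ext h h2), mul_zero]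
    · rw [Q.orth _ _ h, zero_mul]
  sum_eq := by
    rw [Equiv.sum_comp finProdFinEquiv.symm (fun ab => Q.f ab.1 * Q'.f ab.2), Fintype.sum_prod_type]
    simp_rw [← Finset.mul_sum, Q'.sum_eq, Q.f_mul_e]
    exact Q.sum_eq

lemma left_le_common (hA : ∀ a ∈ A, ∀ b ∈ A, a * b = b * a) (Q Q' : Pn A e) :
    Q ≤ common hA Q Q' := fun k => by
  refine ⟨(finProdFinEquiv.symm k).1, ?_⟩
  show Q.f _ * Q'.f _ * Q.f _ = Q.f _ * Q'.f _
  rw [mul_assoc, hA _ (Q'.mem _) _ (Q.mem _), ← mul_assoc, (Q.proj _).isIdempotentElem.eq]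

lemma right_le_common (hA : ∀ a ∈ A, ∀ b ∈ A, a * b = b * a) (Q Q' : Pn A e) :
    Q' ≤ common hA Q Q' := fun k => by
  refine ⟨(finProdFinEquiv.symm k).2, ?_⟩
  show Q.f _ * Q'.f _ * Q'.f _ = Q.f _ * Q'.f _
  rw [mul_assoc, (Q'.proj _).isIdempotentElem.eq]

/-- The partition with one piece. -/
def one (he : IsStarProjection e) (heA : e ∈ A) : Pn A e where
  n := 1
  f _ := e
  mem _ := heA
  proj _ := he
  orth i j h := absurd (Subsingleton.elim i j) h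
  sum_eq := by simp

/-- The partition into `g e` and `e - g e`. -/
noncomputable def split (hA : ∀ a ∈ A, ∀ b ∈ A, a * b = b * a) (he : IsStarProjection e)
    (heA : e ∈ A) {g : H →L[ℂ] H} (hg : IsStarProjection g) (hgA : g ∈ A) : Pn A e where
  n := 2
  f := ![g * e, e - g * e]
  mem i := by
    fin_cases i
    · exact mul_mem hgA heA
    · exact sub_mem heA (mul_mem hgA heA)
  proj i := by
    have hge : IsStarProjection (g * e) := hg.mul he (hA _ hgA _ heA)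
    fin_cases i
    · exact hge
    · show IsStarProjection (e - g * e)
      have h := hg.one_sub.mul he ((Commute.one_left e).sub_left (hA _ hgA _ heA))
      rwa [sub_mul, one_mul] at h
  orth i j h := by
    have h1 : g * e * (g * e) = g * e := (hg.mul he (hA _ hgA _ heA)).isIdempotentElem.eq
    have h2 : g * e * e = g * e := by rw [mul_assoc, he.isIdempotentElem.eq]
    have h3 : e * (g * e) = g * e := by
      rw [← mul_assoc, ← hA _ hgA _ heA, mul_assoc, he.isIdempotentElem.eq]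
    fin_cases i <;> fin_cases j
    · exact absurd rfl h
    · show g * e * (e - g * e) = 0
      rw [mul_sub, h1, h2, sub_self]
    · show (e - g * e) * (g * e) = 0
      rw [sub_mul, h1, h3, sub_self]
    · exact absurd rfl h
  sum_eq := by rw [Fin.sum_univ_two]; simp

lemma commute_T_of_split (hA : ∀ a ∈ A, ∀ b ∈ A, a * b = b * a) (he : IsStarProjection e)
    (heA : e ∈ A) {g : H →L[ℂ] H} (hg : IsStarProjection g) (hgA : g ∈ A) {Q : Pn A e}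
    (hle : split hA he heA hg hgA ≤ Q) (x : H →L[ℂ] H) : Commute g (Q.T x) := by
  refine Commute.sum_right _ _ _ fun j _ => ?_
  set f := Q.f j
  have hfg : f * g = g * f := hA _ (Q.mem j) _ hgA
  obtain ⟨i, hi⟩ := hle j
  have hfge : f * (g * e) = f * g := by
    rw [hA _ hgA _ heA, ← mul_assoc, Q.f_mul_e]
  have hcases : f * g = f ∨ f * g = 0 := by
    fin_cases i
    · exact Or.inl (hfge.symm.trans hi)
    · refine Or.inr ?_
      have h : f * (e - g * e) = f := hi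
      rw [mul_sub, Q.f_mul_e, hfge, sub_eq_self] at h
      exact h
  show g * (f * x * f) = f * x * f * g
  rcases hcases with h | h
  · rw [mul_assoc (f * x) f g, h, ← mul_assoc, ← mul_assoc, ← hfg, h]
  · rw [mul_assoc (f * x) f g, h, mul_zero, ← mul_assoc, ← mul_assoc, ← hfg, h, zero_mul, zero_mul]

lemma T_mem {M : VonNeumannAlgebra H} (hA : IsMASA M A) {x : H →L[ℂ] H} (hx : x ∈ M) :
    Q.T x ∈ M :=
  sum_mem fun i _ => mul_mem (mul_mem (hA.1 _ (Q.mem i)) hx) (hA.1 _ (Q.mem i))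

lemma T_isSelfAdjoint {x : H →L[ℂ] H} (hx : IsSelfAdjoint x) : IsSelfAdjoint (Q.T x) := by
  show star _ = _
  rw [T, star_sum]
  refine Finset.sum_congr rfl fun i _ => ?_
  rw [star_mul, star_mul, hx.star_eq, (Q.proj i).isSelfAdjoint.star_eq, mul_assoc]

lemma norm_T_le (x : H →L[ℂ] H) : ‖Q.T x‖ ≤ ‖x‖ := by
  refine opNorm_le_bound _ (norm_nonneg x) fun v => ?_
  refine le_of_pow_le_pow_left₀ two_ne_zero (by positivity) ?_
  have h1 : Q.T x v = ∑ i, Q.f i (x (Q.f i v)) := by rw [T, sum_apply]; rfl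
  rw [h1, norm_sq_sum_orth _ (fun i _ => Q.proj i) (fun i _ j _ => Q.orth i j)]
  refine (Finset.sum_le_sum fun i _ => (pow_le_pow_left₀ (norm_nonneg _)
    ((norm_proj_apply_le (Q.proj i) _).trans (x.le_opNorm _)) 2).trans_eq (mul_pow _ _ _)).trans ?_
  rw [← Finset.mul_sum, ← norm_sq_sum_orth _ (fun i _ => Q.proj i) (fun i _ j _ => Q.orth i j),
    ← sum_apply, Q.sum_eq, mul_pow]
  exact mul_le_mul_of_nonneg_left
    (pow_le_pow_left₀ (norm_nonneg _) (norm_proj_apply_le Q.e_proj v) 2) (sq_nonneg _)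

lemma T_mul_e (x : H →L[ℂ] H) : Q.T x * e = Q.T x := by
  rw [T, Finset.sum_mul]
  exact Finset.sum_congr rfl fun i _ => by rw [mul_assoc, Q.f_mul_e]

lemma sandwich_T (i : Fin Q.n) (x : H →L[ℂ] H) : Q.f i * Q.T x * Q.f i = Q.f i * x * Q.f i := by
  rw [T, Finset.mul_sum, Finset.sum_mul, Finset.sum_eq_single i]
  · rw [mul_assoc (Q.f i), mul_assoc (Q.f i * x), (Q.proj i).isIdempotentElem.eq, ← mul_assoc,
      ← mul_assoc, (Q.proj i).isIdempotentElem.eq]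
  · intro j _ hj
    rw [← mul_assoc, ← mul_assoc, Q.orth i j (Ne.symm hj), zero_mul, zero_mul, zero_mul]
  · simp

lemma f_mul_of_le {Q Q' : Pn A e} (hA : ∀ a ∈ A, ∀ b ∈ A, a * b = b * a) {j : Fin Q'.n}
    {i : Fin Q.n} (h : Q'.f j * Q.f i = Q'.f j) (k : Fin Q.n) (hk : k ≠ i) :
    Q'.f j * Q.f k = 0 ∧ Q.f k * Q'.f j = 0 := by
  have h0 : Q'.f j * Q.f k = 0 := by
    rw [← h, mul_assoc, Q.orth i k (Ne.symm hk), mul_zero]
  exact ⟨h0, by rw [hA _ (Q.mem k) _ (Q'.mem j), h0]⟩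

lemma T_T_of_le (hA : ∀ a ∈ A, ∀ b ∈ A, a * b = b * a) {Q Q' : Pn A e} (hle : Q ≤ Q')
    (x : H →L[ℂ] H) : Q'.T (Q.T x) = Q'.T x := by
  refine Finset.sum_congr rfl fun j _ => ?_
  obtain ⟨i, hi⟩ := hle j
  have hi' : Q.f i * Q'.f j = Q'.f j := by rw [hA _ (Q.mem i) _ (Q'.mem j), hi]
  rw [T, Finset.mul_sum, Finset.sum_mul, Finset.sum_eq_single i]
  · rw [← mul_assoc, ← mul_assoc, hi, mul_assoc _ (Q.f i), hi']
  · intro k _ hk
    rw [← mul_assoc, ← mul_assoc, (f_mul_of_le hA hi k hk).1, zero_mul, zero_mul, zero_mul]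
  · simp

end Pn

variable {M : VonNeumannAlgebra H} {ι : Type u} {ξ : ι → H} {x y p : H →L[ℂ] H}

lemma inner_conj (hξ : IsFaithfulSemifiniteTrace M ξ) {f : H →L[ℂ] H} (hf : IsStarProjection f)
    (hfM : f ∈ M) (hxM : x ∈ M) (hx : HS ξ x) (hyM : y ∈ M) (hy : HS ξ y) :
    ⟪jv ξ (f * x * f), jv ξ y⟫_ℂ = ⟪jv ξ x, jv ξ (f * y * f)⟫_ℂ := by
  rw [inner_mul_right hξ (mul_mem hfM hxM) (hx.mul_left f) hyM hy hfM, hf.isSelfAdjoint.star_eq,
    inner_mul_left hx (hy.mul_right hξ hyM hfM) f, hf.isSelfAdjoint.star_eq, mul_assoc]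

lemma hs_conj (hξ : IsFaithfulSemifiniteTrace M ξ) {f g : H →L[ℂ] H} (hfM : f ∈ M) (hgM : g ∈ M)
    (hxM : x ∈ M) (hx : HS ξ x) : HS ξ (f * x * g) :=
  (hx.mul_left f).mul_right hξ (mul_mem hfM hxM) hgM

namespace Pn

variable (Q : Pn A e)

lemma hs_T (hξ : IsFaithfulSemifiniteTrace M ξ) (hA : IsMASA M A) (hxM : x ∈ M) (hx : HS ξ x) :
    HS ξ (Q.T x) :=
  HS.sum fun i _ => hs_conj hξ (hA.1 _ (Q.mem i)) (hA.1 _ (Q.mem i)) hxM hx

lemma inner_T (hξ : IsFaithfulSemifiniteTrace M ξ) (hA : IsMASA M A) (hxM : x ∈ M) (hx : HS ξ x)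
    (hyM : y ∈ M) (hy : HS ξ y) :
    ⟪jv ξ (Q.T x), jv ξ y⟫_ℂ = ⟪jv ξ x, jv ξ (Q.T y)⟫_ℂ := by
  rw [T, T, jv_sum fun i _ => hs_conj hξ (hA.1 _ (Q.mem i)) (hA.1 _ (Q.mem i)) hxM hx,
    jv_sum fun i _ => hs_conj hξ (hA.1 _ (Q.mem i)) (hA.1 _ (Q.mem i)) hyM hy, sum_inner, inner_sum]
  exact Finset.sum_congr rfl fun i _ => inner_conj hξ (Q.proj i) (hA.1 _ (Q.mem i)) hxM hx hyM hy

/-- The square norm of the pinching of `p`. -/
lemma sum_norm_sq_diag (hξ : IsFaithfulSemifiniteTrace M ξ) (hA : IsMASA M A) (hpM : p ∈ M)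
    (hp : HS ξ p) : ∑ i, ‖jv ξ (Q.f i * p * Q.f i)‖ ^ 2 = ‖jv ξ (Q.T p)‖ ^ 2 := by
  have hh : ∀ i, HS ξ (Q.f i * p * Q.f i) := fun i =>
    hs_conj hξ (hA.1 _ (Q.mem i)) (hA.1 _ (Q.mem i)) hpM hp
  have e1 : ∀ i, ⟪jv ξ (Q.f i * p * Q.f i), jv ξ (Q.f i * p * Q.f i)⟫_ℂ
      = ⟪jv ξ p, jv ξ (Q.f i * p * Q.f i)⟫_ℂ := fun i => by
    rw [inner_conj hξ (Q.proj i) (hA.1 _ (Q.mem i)) hpM hp
      (mul_mem (mul_mem (hA.1 _ (Q.mem i)) hpM) (hA.1 _ (Q.mem i))) (hh i)]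
    rw [← mul_assoc, ← mul_assoc, (Q.proj i).isIdempotentElem.eq, mul_assoc,
      (Q.proj i).isIdempotentElem.eq]
  have e2 : ⟪jv ξ (Q.T p), jv ξ (Q.T p)⟫_ℂ = ⟪jv ξ p, jv ξ (Q.T p)⟫_ℂ := by
    rw [Q.inner_T hξ hA hpM hp (Q.T_mem hA hpM) (Q.hs_T hξ hA hpM hp),
      T_T_of_le hA.2.1 le_rfl]
  have e3 : ⟪jv ξ p, jv ξ (Q.T p)⟫_ℂ = ∑ i, ⟪jv ξ p, jv ξ (Q.f i * p * Q.f i)⟫_ℂ := by
    rw [T, jv_sum fun i _ => hh i, inner_sum]
  have h := congrArg Complex.re (e2.trans (e3.trans (Finset.sum_congr rfl fun i _ => (e1 i).symm)))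
  rw [Complex.re_sum] at h
  simp only [← RCLike.re_to_complex, inner_self_eq_norm_sq] at h
  exact h.symm

/-- Pinching is orthogonal: `‖T x - T' x‖₂² = ‖T x‖₂² - ‖T' x‖₂²` for a refinement `T'`. -/
lemma norm_sq_sub_of_le (hξ : IsFaithfulSemifiniteTrace M ξ) (hA : IsMASA M A) {Q Q' : Pn A e}
    (hle : Q ≤ Q') (hxM : x ∈ M) (hx : HS ξ x) :
    ‖jv ξ (Q.T x) - jv ξ (Q'.T x)‖ ^ 2 = ‖jv ξ (Q.T x)‖ ^ 2 - ‖jv ξ (Q'.T x)‖ ^ 2 := by
  have h1 : ⟪jv ξ (Q'.T x), jv ξ (Q.T x)⟫_ℂ = ⟪jv ξ (Q'.T x), jv ξ (Q'.T x)⟫_ℂ := by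
    rw [Q'.inner_T hξ hA hxM hx (Q.T_mem hA hxM) (Q.hs_T hξ hA hxM hx),
      Q'.inner_T hξ hA hxM hx (Q'.T_mem hA hxM) (Q'.hs_T hξ hA hxM hx),
      T_T_of_le hA.2.1 hle, T_T_of_le hA.2.1 le_rfl]
  rw [norm_sub_sq (𝕜 := ℂ), inner_re_symm, h1, inner_self_eq_norm_sq]
  ring

lemma norm_T_anti (hξ : IsFaithfulSemifiniteTrace M ξ) (hA : IsMASA M A) {Q Q' : Pn A e}
    (hle : Q ≤ Q') (hxM : x ∈ M) (hx : HS ξ x) :
    ‖jv ξ (Q'.T x)‖ ^ 2 ≤ ‖jv ξ (Q.T x)‖ ^ 2 := by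
  linarith [norm_sq_sub_of_le hξ hA hle hxM hx, sq_nonneg ‖jv ξ (Q.T x) - jv ξ (Q'.T x)‖]

end Pn

/-- A sandwich is controlled by the diagonal block. -/
lemma norm_sandwich_le (hξ : IsFaithfulSemifiniteTrace M ξ) {f : H →L[ℂ] H}
    (hp : IsStarProjection p) (hf : IsStarProjection f) (hpM : p ∈ M) (hfM : f ∈ M)
    (hpHS : HS ξ p) (hxM : x ∈ M) :
    ‖jv ξ (p * f * x * f * p)‖ ≤ ‖x‖ * ‖jv ξ (f * p * f)‖ := by
  refine le_of_pow_le_pow_left₀ two_ne_zero (by positivity) ?_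
  have h := inner_sandwich hξ hp hf hf hpM hfM hfM hpHS hxM
  rw [← inner_self_eq_norm_sq (𝕜 := ℂ), h]
  refine (re_inner_le_norm _ _).trans ?_
  have hh : HS ξ (f * p * f) := hs_conj hξ hfM hfM hpM hpHS
  refine (mul_le_mul (norm_jv_mul_left hh x)
    (norm_jv_mul_right hξ (mul_mem (mul_mem hfM hpM) hfM) hh hxM) (norm_nonneg _)
    (by positivity)).trans_eq ?_
  ring

lemma Pn.sum_sum_le (Q : Pn A e) (hξ : IsFaithfulSemifiniteTrace M ξ) (hA : IsMASA M A)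
    (hp : IsStarProjection p) (hpM : p ∈ M) (hpHS : HS ξ p) (hxM : x ∈ M) :
    ∑ i, ∑ j, ‖jv ξ (p * Q.f i * x * Q.f j * p)‖ ^ 2 ≤ ‖x‖ ^ 2 * ‖jv ξ (Q.T p)‖ ^ 2 := by
  have hfM : ∀ i, Q.f i ∈ M := fun i => hA.1 _ (Q.mem i)
  have hh : ∀ i, HS ξ (Q.f i * p * Q.f i) := fun i => hs_conj hξ (hfM i) (hfM i) hpM hpHS
  have hTM := Q.T_mem hA hpM
  have hT := Q.hs_T hξ hA hpM hpHS
  have key : ∑ i, ∑ j, ⟪jv ξ (p * Q.f i * x * Q.f j * p), jv ξ (p * Q.f i * x * Q.f j * p)⟫_ℂ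
      = ⟪jv ξ (x * Q.T p), jv ξ (Q.T p * x)⟫_ℂ := by
    simp_rw [inner_sandwich hξ hp (Q.proj _) (Q.proj _) hpM (hfM _) (hfM _) hpHS hxM]
    rw [Finset.sum_comm]
    rw [Pn.T, Finset.mul_sum, Finset.sum_mul, jv_sum fun i _ => (hh i).mul_left x,
      jv_sum fun i _ => (hh i).mul_right hξ (mul_mem (mul_mem (hfM i) hpM) (hfM i)) hxM,
      sum_inner]
    exact Finset.sum_congr rfl fun i _ => (inner_sum _ _ _).symm
  have h := congrArg Complex.re key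
  simp only [Complex.re_sum] at h
  simp only [← RCLike.re_to_complex, inner_self_eq_norm_sq] at h
  rw [h]
  refine (re_inner_le_norm _ _).trans ?_
  refine (mul_le_mul (norm_jv_mul_left hT x) (norm_jv_mul_right hξ hTM hT hxM)
    (norm_nonneg _) (by positivity)).trans_eq ?_
  ring

end Semi

end Vale.Agent.P078
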