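import Mathlib
import Vale.Agent.P078.Semi.Pinch
import Vale.Agent.P078.Semi.SpectralComm

/-!
# Pinchings over the part without finite projections: vanishing diagonal, averaged limit
-/

open scoped InnerProductSpace Topology
open ContinuousLinearMap Filter

namespace Vale.Agent.P078

universe u

variable {H : Type u} [NormedAddCommGroup H] [InnerProductSpace ℂ H] [CompleteSpace H]

namespace Semi

variable {A : StarSubalgebra ℂ (H →L[ℂ] H)} {e : H →L[ℂ] H} {M : VonNeumannAlgebra H}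
  {ι : Type u} {ξ : ι → H} {x p : H →L[ℂ] H}

lemma exists_mono_minimizing (hA : IsMASA M A) (hξ : IsFaithfulSemifiniteTrace M ξ)
    (he : IsStarProjection e) (heA : e ∈ A) (hpM : p ∈ M) (hp : HS ξ p) :
    ∃ (s : ℝ) (R : ℕ → Pn A e), Monotone R ∧ (∀ Q : Pn A e, s ≤ ‖jv ξ (Q.T p)‖ ^ 2) ∧
      ∀ k, ‖jv ξ ((R k).T p)‖ ^ 2 ≤ s + 1 / ((k : ℝ) + 1) := by
  set v : Pn A e → ℝ := fun Q => ‖jv ξ (Q.T p)‖ ^ 2
  have : Nonempty (Pn A e) := ⟨Pn.one he heA⟩
  have hb : BddBelow (Set.range v) := ⟨0, by rintro _ ⟨Q, rfl⟩; exact sq_nonneg _⟩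
  have hex : ∀ k : ℕ, ∃ Q, v Q ≤ (⨅ Q, v Q) + 1 / ((k : ℝ) + 1) := fun k => by
    obtain ⟨Q, hQ⟩ := exists_lt_of_ciInf_lt (f := v) (a := (⨅ Q, v Q) + 1 / ((k : ℝ) + 1))
      (lt_add_of_pos_right _ (by positivity))
    exact ⟨Q, hQ.le⟩
  choose Q hQ using hex
  let R : ℕ → Pn A e := fun k => Nat.recOn k (Q 0) fun k S => Pn.common hA.2.1 S (Q (k + 1))
  refine ⟨⨅ Q, v Q, R, monotone_nat_of_le_succ fun k => Pn.left_le_common _ _ _,
    fun Q' => ciInf_le hb Q', fun k => ?_⟩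
  refine le_trans (Pn.norm_T_anti hξ hA ?_ hpM hp) (hQ k)
  cases k with
  | zero => exact le_rfl
  | succ k => exact Pn.right_le_common _ _ _

lemma exists_limit_op (hA : IsMASA M A) (hξ : IsFaithfulSemifiniteTrace M ξ)
    (hpM : p ∈ M) (hp : HS ξ p) {s : ℝ} {R : ℕ → Pn A e} (hmono : Monotone R)
    (hs : ∀ Q : Pn A e, s ≤ ‖jv ξ (Q.T p)‖ ^ 2)
    (hR : ∀ k, ‖jv ξ ((R k).T p)‖ ^ 2 ≤ s + 1 / ((k : ℝ) + 1)) :
    ∃ d : H →L[ℂ] H, (∀ v, Tendsto (fun k => (R k).T p v) atTop (𝓝 (d v))) ∧ HS ξ d ∧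
      ‖jv ξ d‖ ^ 2 = s := by
  have hh : ∀ k, HS ξ ((R k).T p) := fun k => (R k).hs_T hξ hA hpM hp
  have hdist : ∀ k l, k ≤ l →
      ‖jv ξ ((R k).T p) - jv ξ ((R l).T p)‖ ^ 2 ≤ 1 / ((k : ℝ) + 1) := fun k l hkl => by
    rw [Pn.norm_sq_sub_of_le hξ hA (hmono hkl) hpM hp]
    linarith [hR k, hs (R l)]
  have hcs : CauchySeq fun k => jv ξ ((R k).T p) := by
    refine cauchySeq_of_le_tendsto_0 (fun k : ℕ => 2 * Real.sqrt (1 / ((k : ℝ) + 1))) ?_ ?_
    · intro m n N hm hn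
      rw [dist_eq_norm]
      have h1 := Real.abs_le_sqrt (hdist N m hm)
      have h2 := Real.abs_le_sqrt (hdist N n hn)
      rw [abs_norm] at h1 h2
      refine (norm_sub_le_norm_sub_add_norm_sub _ (jv ξ ((R N).T p)) _).trans ?_
      rw [norm_sub_rev (jv ξ ((R m).T p))]
      linarith
    · have := (tendsto_one_div_add_atTop_nhds_zero_nat (𝕜 := ℝ)).sqrt
      simpa using this.const_mul 2
  obtain ⟨L, hL⟩ := cauchySeq_tendsto_of_complete hcs
  have hpt : ∀ v, CauchySeq fun k => (R k).T p v := fun v => by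
    refine Metric.cauchySeq_iff.2 fun η hη => ?_
    obtain ⟨δ, hδ, hsm⟩ := small_at hξ (2 * ‖p‖) {v} (half_pos hη)
    obtain ⟨N, hN⟩ := Metric.cauchySeq_iff.1 hcs δ hδ
    refine ⟨N, fun m hm k hk => ?_⟩
    have hd := (hN m hm k hk).le
    rw [dist_eq_norm, ← jv_sub (hh m) (hh k)] at hd
    have := hsm ((R m).T p - (R k).T p) (sub_mem ((R m).T_mem hA hpM) ((R k).T_mem hA hpM))
      ((norm_sub_le _ _).trans (by linarith [(R m).norm_T_le p, (R k).norm_T_le p]))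
      ((hh m).sub (hh k)) hd v (Finset.mem_singleton_self v)
    rw [dist_eq_norm, ← sub_apply]
    linarith
  choose f hf using fun v => cauchySeq_tendsto_of_complete (hpt v)
  let d : H →L[ℂ] H :=
    continuousLinearMapOfTendsto (fun k => (R k).T p) (tendsto_pi_nhds.2 hf)
  have hd : ∀ v, Tendsto (fun k => (R k).T p v) atTop (𝓝 (d v)) := hf
  have hcoord : ∀ i, L i = d (ξ i) := fun i => by
    refine tendsto_nhds_unique ?_ (hd (ξ i))
    have h1 : Tendsto (fun k => jv ξ ((R k).T p) i) atTop (𝓝 (L i)) := by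
      refine squeeze_zero_norm (fun k => ?_) (tendsto_iff_norm_sub_tendsto_zero.1 hL) |>
        tendsto_sub_nhds_zero_iff.1
      have := lp.norm_apply_le_norm (p := 2) (by norm_num) (jv ξ ((R k).T p) - L) i
      simpa using this
    exact h1.congr fun k => jv_apply (hh k) i
  have hdHS : HS ξ d := hs_iff_memℓp.2 (by
    rw [show (fun i => d (ξ i)) = ⇑L from funext fun i => (hcoord i).symm]; exact L.2)
  refine ⟨d, hd, hdHS, ?_⟩
  have hjd : jv ξ d = L := by
    apply lp.ext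
    funext i
    rw [jv_apply hdHS, hcoord]
  rw [hjd]
  refine tendsto_nhds_unique (hL.norm.pow 2) ?_
  refine tendsto_of_tendsto_of_tendsto_of_le_of_le tendsto_const_nhds ?_ (fun k => hs (R k)) hR
  simpa using (tendsto_one_div_add_atTop_nhds_zero_nat (𝕜 := ℝ)).const_add s

lemma limit_mem_masa (hA : IsMASA M A) (hξ : IsFaithfulSemifiniteTrace M ξ)
    (hpM : p ∈ M) (hp : HS ξ p) (he : IsStarProjection e) (heA : e ∈ A)
    {s : ℝ} {R : ℕ → Pn A e}
    (hs : ∀ Q : Pn A e, s ≤ ‖jv ξ (Q.T p)‖ ^ 2)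
    (hR : ∀ k, ‖jv ξ ((R k).T p)‖ ^ 2 ≤ s + 1 / ((k : ℝ) + 1))
    {d : H →L[ℂ] H} (hd : ∀ v, Tendsto (fun k => (R k).T p v) atTop (𝓝 (d v))) : d ∈ A := by
  have hdM : d ∈ M := mem_vn fun y hy => by
    ext v
    refine tendsto_nhds_unique ((y.continuous.tendsto _).comp (hd v))
      ((hd (y v)).congr fun k => ?_)
    exact (congrArg (fun T : H →L[ℂ] H => T v)
      (commute_commutant ((R k).T_mem hA hpM) hy).eq).symm
  refine mem_masa_of_commute_proj hA hdM fun g hgA hg => ?_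
  let R' : ℕ → Pn A e := fun k => Pn.common hA.2.1 (R k) (Pn.split hA.2.1 he heA hg hgA)
  have hh : ∀ k, HS ξ ((R k).T p) := fun k => (R k).hs_T hξ hA hpM hp
  have hh' : ∀ k, HS ξ ((R' k).T p) := fun k => (R' k).hs_T hξ hA hpM hp
  have h2 : ∀ k, ‖jv ξ ((R k).T p - (R' k).T p)‖ ^ 2 ≤ 1 / ((k : ℝ) + 1) := fun k => by
    rw [jv_sub (hh k) (hh' k), Pn.norm_sq_sub_of_le hξ hA (Pn.left_le_common _ _ _) hpM hp]
    linarith [hR k, hs (R' k)]
  have hd' : ∀ v, Tendsto (fun k => (R' k).T p v) atTop (𝓝 (d v)) := fun v => by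
    have h3 : Tendsto (fun k => ((R k).T p - (R' k).T p) v) atTop (𝓝 0) := by
      refine NormedAddGroup.tendsto_nhds_zero.2 fun η hη => ?_
      obtain ⟨δ, hδ, hsm⟩ := small_at hξ (2 * ‖p‖) {v} (half_pos hη)
      filter_upwards [(tendsto_order.1 (tendsto_one_div_add_atTop_nhds_zero_nat (𝕜 := ℝ))).2
        (δ ^ 2) (by positivity)] with k hk
      have := hsm _ (sub_mem ((R k).T_mem hA hpM) ((R' k).T_mem hA hpM))
        ((norm_sub_le _ _).trans (by linarith [(R k).norm_T_le p, (R' k).norm_T_le p]))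
        ((hh k).sub (hh' k))
        (le_of_pow_le_pow_left₀ two_ne_zero hδ.le ((h2 k).trans hk.le)) v
        (Finset.mem_singleton_self v)
      linarith
    have := (hd v).sub h3
    rw [sub_zero] at this
    exact this.congr fun k => by rw [sub_apply, sub_sub_cancel]
  ext v
  refine tendsto_nhds_unique ((g.continuous.tendsto _).comp (hd' v)) ((hd' (g v)).congr fun k => ?_)
  exact (congrArg (fun T : H →L[ℂ] H => T v)
    (Pn.commute_T_of_split hA.2.1 he heA hg hgA (Pn.right_le_common hA.2.1 (R k) _) p).eq).symm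

lemma eq_zero_of_no_finite (hA : IsMASA M A) (hnf : ∀ f, IsFiniteProj A ξ f → f * e = 0)
    {d : H →L[ℂ] H} (hdA : d ∈ A) (hde : d * e = d) (hd : HS ξ d) : d = 0 := by
  ext v
  show d v = 0
  refine norm_le_zero_iff.1 (le_of_forall_pos_le_add fun η hη => ?_)
  set η' := η / (‖v‖ + 1)
  have hη' : 0 < η' := by positivity
  obtain ⟨P, hP, hPc, hPle, hPsm, -⟩ := exists_sq_cut d hη'.le
  have hbA : star d * d ∈ A := mul_mem (star_mem hdA) hdA
  have hPM : P ∈ M := mem_vn fun z hz => hPc z (commute_commutant (hA.1 _ hbA) hz)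
  have hPA : P ∈ A := hA.2.2 P hPM fun a ha => (hPc a (hA.2.1 a ha _ hbA)).eq
  have hPfin : IsFiniteProj A ξ P := by
    refine ⟨hPA, hP, hs_of_le hd (C := η'⁻¹) fun i => ?_⟩
    rw [← div_eq_inv_mul, le_div_iff₀ hη', mul_comm]
    exact hPle (ξ i)
  have hP0 : P v = 0 := by
    have h1 := hPle (v - e v)
    have h2 : d (v - e v) = 0 := by
      rw [map_sub, apply_mul, hde, sub_self]
    have h3 : P (e v) = 0 := by
      rw [apply_mul, hnf P hPfin]; rfl
    rw [h2, norm_zero, map_sub, h3, sub_zero] at h1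
    exact norm_le_zero_iff.1 (nonpos_of_mul_nonpos_right h1 hη')
  have h4 := hPsm v
  have h5 : (1 - P) v = v := by
    show v - P v = v
    rw [hP0, sub_zero]
  rw [h5] at h4
  rw [zero_add]
  refine h4.trans ?_
  simp only [η']
  rw [div_mul_eq_mul_div, div_le_iff₀ (by positivity)]
  nlinarith [norm_nonneg v]

/-- Over a part without finite projections, the diagonal of an element of finite trace can be
pinched away in `L²`. -/
theorem exists_small_diag (hA : IsMASA M A) (hξ : IsFaithfulSemifiniteTrace M ξ)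
    (he : IsStarProjection e) (heA : e ∈ A) (hnf : ∀ f, IsFiniteProj A ξ f → f * e = 0)
    (hpM : p ∈ M) (hp : HS ξ p) {η : ℝ} (hη : 0 < η) :
    ∃ Q : Pn A e, ‖jv ξ (Q.T p)‖ ≤ η := by
  obtain ⟨s, R, hmono, hs, hR⟩ := exists_mono_minimizing hA hξ he heA hpM hp
  obtain ⟨d, hd, hdHS, hds⟩ := exists_limit_op hA hξ hpM hp hmono hs hR
  have hdA := limit_mem_masa hA hξ hpM hp he heA hs hR hd
  have hde : d * e = d := by
    ext v
    refine tendsto_nhds_unique ((hd (e v)).congr fun k => ?_) (hd v)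
    rw [apply_mul, Pn.T_mul_e]
  rw [eq_zero_of_no_finite hA hnf hdA hde hdHS, jv_zero, norm_zero] at hds
  obtain ⟨k, hk⟩ := exists_nat_gt (1 / η ^ 2)
  refine ⟨R k, le_of_pow_le_pow_left₀ two_ne_zero hη.le ((hR k).trans ?_)⟩
  rw [← hds, zero_pow two_ne_zero, zero_add, div_le_iff₀ (by positivity)]
  rw [div_lt_iff₀ (by positivity)] at hk
  nlinarith [sq_nonneg η]

end Semi

end Vale.Agent.P078
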