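import Mathlib
import Vale.Agent.P078.Semi.Limit

/-!
# A limit point of the pinchings of `x` and its approximation by convex combinations
-/

open scoped InnerProductSpace Topology
open ContinuousLinearMap Filter

namespace Vale.Agent.P078

universe u

variable {H : Type u} [NormedAddCommGroup H] [InnerProductSpace ℂ H] [CompleteSpace H]

namespace Semi

variable {A : StarSubalgebra ℂ (H →L[ℂ] H)} {e : H →L[ℂ] H} {M : VonNeumannAlgebra H}
  {ι : Type u} {ξ : ι → H} {x p : H →L[ℂ] H}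

lemma exists_weak_limit {κ : Type*} (U : Ultrafilter κ) (T : κ → H →L[ℂ] H) (C : ℝ) (hC : 0 ≤ C)
    (hT : ∀ k, ‖T k‖ ≤ C) :
    ∃ a : H →L[ℂ] H, ‖a‖ ≤ C ∧ ∀ v w, Tendsto (fun k => ⟪T k v, w⟫_ℂ) U (𝓝 ⟪a v, w⟫_ℂ) := by
  have hb : ∀ v w k, ‖⟪T k v, w⟫_ℂ‖ ≤ C * ‖v‖ * ‖w‖ := fun v w k =>
    (norm_inner_le_norm _ _).trans (mul_le_mul_of_nonneg_right
      (((T k).le_opNorm v).trans (mul_le_mul_of_nonneg_right (hT k) (norm_nonneg v)))
      (norm_nonneg w))
  have hlim : ∀ v w, ∃ c, Tendsto (fun k => ⟪T k v, w⟫_ℂ) U (𝓝 c) := fun v w => by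
    obtain ⟨c, -, hc⟩ := (isCompact_closedBall (0 : ℂ) (C * ‖v‖ * ‖w‖)).ultrafilter_le_nhds
      (U.map fun k => ⟪T k v, w⟫_ℂ) (by
        rw [Filter.le_principal_iff, Ultrafilter.coe_map, Filter.mem_map]
        exact Filter.univ_mem' fun k => mem_closedBall_zero_iff.2 (hb v w k))
    exact ⟨c, hc⟩
  choose L hL using hlim
  let B₀ : H →ₛₗ[starRingEnd ℂ] H →ₗ[ℂ] ℂ := LinearMap.mk₂'ₛₗ (starRingEnd ℂ) (RingHom.id ℂ) L
    (fun v v' w => tendsto_nhds_unique (hL (v + v') w)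
      (((hL v w).add (hL v' w)).congr fun k => by rw [map_add, inner_add_left]))
    (fun c v w => tendsto_nhds_unique (hL (c • v) w)
      (((hL v w).const_mul (starRingEnd ℂ c)).congr fun k => by
        rw [map_smul, inner_smul_left]))
    (fun v w w' => tendsto_nhds_unique (hL v (w + w'))
      (((hL v w).add (hL v w')).congr fun k => by rw [inner_add_right]))
    (fun c v w => tendsto_nhds_unique (hL v (c • w))
      (((hL v w).const_mul c).congr fun k => by rw [inner_smul_right]))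
  let B : H →L⋆[ℂ] H →L[ℂ] ℂ := B₀.mkContinuous₂ C fun v w =>
    le_of_tendsto (hL v w).norm (Eventually.of_forall (hb v w))
  refine ⟨InnerProductSpace.continuousLinearMapOfBilin B, ?_, fun v w => ?_⟩
  · refine opNorm_le_bound _ hC fun v => ?_
    set av := InnerProductSpace.continuousLinearMapOfBilin B v with hav
    have h1 : L v av = ⟪av, av⟫_ℂ := (InnerProductSpace.continuousLinearMapOfBilin_apply B v av).symm
    have h2 : ‖⟪av, av⟫_ℂ‖ ≤ C * ‖v‖ * ‖av‖ := by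
      rw [← h1]; exact le_of_tendsto (hL v av).norm (Eventually.of_forall (hb v av))
    rw [inner_self_eq_norm_sq_to_K] at h2
    simp at h2
    nlinarith [norm_nonneg av, mul_nonneg hC (norm_nonneg v)]
  · rw [InnerProductSpace.continuousLinearMapOfBilin_apply]
    exact hL v w

lemma weak_limit_mem_masa (hA : IsMASA M A) (he : IsStarProjection e) (heA : e ∈ A) (hxM : x ∈ M)
    (hxs : IsSelfAdjoint x) {U : Ultrafilter (Pn A e)} (hU : (U : Filter (Pn A e)) ≤ atTop)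
    {a : H →L[ℂ] H}
    (ha : ∀ v w, Tendsto (fun Q : Pn A e => ⟪Q.T x v, w⟫_ℂ) U (𝓝 ⟪a v, w⟫_ℂ)) :
    a ∈ A ∧ IsSelfAdjoint a ∧ a * e = a := by
  have hcomm : ∀ z : H →L[ℂ] H, (∀ᶠ Q in (U : Filter (Pn A e)), Commute z (Q.T x)) →
      Commute z a := by
    intro z hz
    ext v
    refine ext_inner_right ℂ fun w => ?_
    show ⟪z (a v), w⟫_ℂ = ⟪a (z v), w⟫_ℂ
    rw [← adjoint_inner_right]
    refine tendsto_nhds_unique (ha v _) ((ha (z v) w).congr' ?_)
    filter_upwards [hz] with Q hQ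
    rw [adjoint_inner_right]
    exact congrArg (fun u => ⟪u, w⟫_ℂ) (congrArg (fun T : H →L[ℂ] H => T v) hQ.eq).symm
  have haM : a ∈ M := mem_vn fun y hy =>
    hcomm y (Eventually.of_forall fun Q => commute_commutant (Q.T_mem hA hxM) hy)
  refine ⟨mem_masa_of_commute_proj hA haM fun g hgA hg => ?_, ?_, ?_⟩
  · exact hcomm g ((eventually_ge_atTop (Pn.split hA.2.1 he heA hg hgA)).filter_mono hU |>.mono
      fun Q hQ => Pn.commute_T_of_split hA.2.1 he heA hg hgA hQ x)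
  · rw [isSelfAdjoint_iff_isSymmetric]
    intro v w
    show ⟪a v, w⟫_ℂ = ⟪v, a w⟫_ℂ
    rw [← inner_conj_symm v]
    refine tendsto_nhds_unique (ha v w)
      ((((RCLike.continuous_conj (K := ℂ)).tendsto _).comp (ha w v)).congr fun Q => ?_)
    show starRingEnd ℂ ⟪Q.T x w, v⟫_ℂ = _
    rw [inner_conj_symm]
    exact ((isSelfAdjoint_iff_isSymmetric.1 (Q.T_isSelfAdjoint hxs)) v w).symm
  · ext v
    refine ext_inner_right ℂ fun w => tendsto_nhds_unique (ha (e v) w)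
      ((ha v w).congr fun Q => ?_)
    rw [apply_mul, Pn.T_mul_e]

lemma tendsto_inner_jv (hA : IsMASA M A) (hxM : x ∈ M)
    (hp : IsStarProjection p) (hpHS : HS ξ p)
    {U : Ultrafilter (Pn A e)} {a : H →L[ℂ] H} (haM : a ∈ M)
    (ha : ∀ v w, Tendsto (fun Q : Pn A e => ⟪Q.T x v, w⟫_ℂ) U (𝓝 ⟪a v, w⟫_ℂ))
    (z : lp (fun _ : ι => H) 2) :
    Tendsto (fun Q : Pn A e => ⟪z, jv ξ (p * Q.T x * p)⟫_ℂ) U (𝓝 ⟪z, jv ξ (p * a * p)⟫_ℂ) := by
  have hs : ∀ T ∈ M, HS ξ (p * T * p) := fun T hT =>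
    hpHS.mul_left (p * T)
  have hval : ∀ T ∈ M, ⟪z, jv ξ (p * T * p)⟫_ℂ = ∑' i, ⟪p (z i), T (p (ξ i))⟫_ℂ := by
    intro T hT
    rw [← (lp.hasSum_inner (𝕜 := ℂ) z (jv ξ (p * T * p))).tsum_eq]
    refine tsum_congr fun i => ?_
    rw [jv_apply (hs T hT), proj_inner hp]
    rfl
  rw [hval a haM]
  simp_rw [hval _ (Pn.T_mem _ hA hxM)]
  refine tendsto_tsum_of_dominated_convergence
    (bound := fun i => ‖x‖ / 2 * (‖z i‖ ^ 2 + ‖p (ξ i)‖ ^ 2)) ?_ (fun i => ?_) ?_
  · refine (Summable.add ?_ hpHS).mul_left _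
    have := (lp.memℓp z).summable (by norm_num)
    simpa using this
  · have h1 := (RCLike.continuous_conj (K := ℂ)).tendsto _ |>.comp (ha (p (ξ i)) (p (z i)))
    rw [inner_conj_symm] at h1
    exact h1.congr fun Q => inner_conj_symm (p (z i)) (Q.T x (p (ξ i)))
  · refine Eventually.of_forall fun Q i => ?_
    refine (norm_inner_le_norm _ _).trans ?_
    refine (mul_le_mul (norm_proj_apply_le hp _) (((Q.T x).le_opNorm _).trans
      (mul_le_mul_of_nonneg_right (Q.norm_T_le x) (norm_nonneg _))) (norm_nonneg _)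
      (norm_nonneg _)).trans ?_
    nlinarith [mul_nonneg (norm_nonneg x) (sq_nonneg (‖z i‖ - ‖p (ξ i)‖))]

/-- The averaged pinching: an element `a` of the MASA such that every `p a p` is an `L²` limit of
convex combinations of `p T_Q(x) p` over arbitrarily fine partitions `Q`. -/
theorem exists_average (hA : IsMASA M A)
    (he : IsStarProjection e) (heA : e ∈ A) (hxM : x ∈ M) (hxs : IsSelfAdjoint x) :
    ∃ a ∈ A, IsSelfAdjoint a ∧ a * e = a ∧ ‖a‖ ≤ ‖x‖ ∧
      ∀ p ∈ M, IsStarProjection p → HS ξ p → ∀ Q₀ : Pn A e,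
        jv ξ (p * a * p) ∈
          closure (convexHull ℝ ((fun Q : Pn A e => jv ξ (p * Q.T x * p)) '' Set.Ici Q₀)) := by
  have : Nonempty (Pn A e) := ⟨Pn.one he heA⟩
  have : IsDirectedOrder (Pn A e) :=
    ⟨fun Q Q' => ⟨Pn.common hA.2.1 Q Q', Pn.left_le_common _ _ _, Pn.right_le_common _ _ _⟩⟩
  obtain ⟨U, hU⟩ := Ultrafilter.exists_le (atTop : Filter (Pn A e))
  obtain ⟨a, han, ha⟩ := exists_weak_limit U (fun Q : Pn A e => Q.T x) ‖x‖ (norm_nonneg x)
    fun Q => Q.norm_T_le x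
  obtain ⟨haA, has, hae⟩ := weak_limit_mem_masa hA he heA hxM hxs hU ha
  refine ⟨a, haA, has, hae, han, fun p hpM hp hpHS Q₀ => ?_⟩
  by_contra hnot
  obtain ⟨f, u, hfs, hfu⟩ := RCLike.geometric_hahn_banach_closed_point (𝕜 := ℂ)
    (convex_convexHull ℝ _).closure isClosed_closure hnot
  set z := (InnerProductSpace.toDual ℂ (lp (fun _ : ι => H) 2)).symm f
  have hz : ∀ w, f w = ⟪z, w⟫_ℂ := fun w =>
    (InnerProductSpace.toDual_symm_apply (𝕜 := ℂ)).symm
  have h1 := tendsto_inner_jv hA hxM hp hpHS (hA.1 a haA) ha z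
  have h2 : (⟪z, jv ξ (p * a * p)⟫_ℂ).re ≤ u := by
    refine le_of_tendsto ((Complex.continuous_re.tendsto _).comp h1) ?_
    filter_upwards [(eventually_ge_atTop Q₀).filter_mono hU] with Q hQ
    have := hfs _ (subset_closure (subset_convexHull ℝ _ ⟨Q, hQ, rfl⟩))
    rw [hz] at this
    exact this.le
  rw [hz] at hfu
  exact absurd h2 (not_le.2 hfu)

end Semi

end Vale.Agent.P078
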