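import Mathlib

/-!
# Two selection lemmas in inner product spaces: greedy choice and random colouring
-/

open scoped InnerProductSpace

namespace Vale.Agent.P078

namespace Semi

variable {E : Type*} [NormedAddCommGroup E] [InnerProductSpace ℂ E]

/-- Greedy choice from families with vanishing weighted mean. -/
lemma exists_greedy {α κ : Type*} [Fintype κ] [Nonempty κ] (s : Finset α) (W : α → κ → E)
    (w : κ → ℝ) (hw : ∀ k, 0 ≤ w k) (hw1 : ∑ k, w k = 1)
    (hmean : ∀ i ∈ s, ∑ k, (w k : ℂ) • W i k = 0) (B : α → ℝ)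
    (hB : ∀ i ∈ s, ∀ k, ‖W i k‖ ^ 2 ≤ B i) :
    ∃ f : α → κ, ‖∑ i ∈ s, W i (f i)‖ ^ 2 ≤ ∑ i ∈ s, B i := by
  classical
  induction s using Finset.induction_on with
  | empty => exact ⟨fun _ => Classical.arbitrary κ, by simp⟩
  | insert i s hi ih =>
    obtain ⟨f, hf⟩ := ih (fun j hj => hmean j (Finset.mem_insert_of_mem hj))
      (fun j hj => hB j (Finset.mem_insert_of_mem hj))
    set S := ∑ j ∈ s, W j (f j)
    have hzero : ∑ k, w k * (⟪S, W i k⟫_ℂ).re = 0 := by
      have h := congrArg (fun v => (⟪S, v⟫_ℂ).re) (hmean i (Finset.mem_insert_self i s))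
      simp only [inner_sum, inner_smul_right, Complex.re_sum, inner_zero_right, Complex.zero_re,
        Complex.re_ofReal_mul] at h
      exact h
    have hbound : ∑ k, w k * ‖S + W i k‖ ^ 2 ≤ ‖S‖ ^ 2 + B i := by
      have h1 : ∀ k, w k * ‖S + W i k‖ ^ 2
          = w k * ‖S‖ ^ 2 + 2 * (w k * (⟪S, W i k⟫_ℂ).re) + w k * ‖W i k‖ ^ 2 := fun k => by
        rw [norm_add_sq (𝕜 := ℂ), RCLike.re_to_complex]; ring
      rw [Finset.sum_congr rfl fun k _ => h1 k, Finset.sum_add_distrib, Finset.sum_add_distrib,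
        ← Finset.sum_mul, ← Finset.mul_sum, hzero, hw1, one_mul, mul_zero, add_zero]
      gcongr
      refine (Finset.sum_le_sum fun k _ =>
        mul_le_mul_of_nonneg_left (hB i (Finset.mem_insert_self i s) k) (hw k)).trans_eq ?_
      rw [← Finset.sum_mul, hw1, one_mul]
    have hex : ∃ k, ‖S + W i k‖ ^ 2 ≤ ‖S‖ ^ 2 + B i := by
      by_contra hno
      push Not at hno
      obtain ⟨k0, hk0⟩ : ∃ k, 0 < w k := by
        by_contra hn
        push Not at hn
        have hs0 : ∑ k, w k ≤ 0 := Finset.sum_nonpos fun k _ => hn k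
        linarith
      have hlt : ∑ k, w k * (‖S‖ ^ 2 + B i) < ∑ k, w k * ‖S + W i k‖ ^ 2 :=
        Finset.sum_lt_sum (fun k _ => mul_le_mul_of_nonneg_left (hno k).le (hw k))
          ⟨k0, Finset.mem_univ _, mul_lt_mul_of_pos_left (hno k0) hk0⟩
      rw [← Finset.sum_mul, hw1, one_mul] at hlt
      linarith
    obtain ⟨k, hk⟩ := hex
    refine ⟨Function.update f i k, ?_⟩
    have e : ∑ j ∈ s, W j (Function.update f i k j) = S :=
      Finset.sum_congr rfl fun j hj => by
        rw [Function.update_of_ne (ne_of_mem_of_not_mem hj hi)]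
    rw [Finset.sum_insert hi, Finset.sum_insert hi, Function.update_self, e, add_comm (W i k)]
    linarith

/-- The centred weight of a pair under a colouring. -/
noncomputable def colWeight {n r : ℕ} (c : Fin n → Fin r) (a b : Fin n) : ℝ :=
  if a = b then 0 else (if c a = c b then 1 else 0) - 1 / (r : ℝ)

lemma colWeight_symm {n r : ℕ} (c : Fin n → Fin r) (a b : Fin n) :
    colWeight c a b = colWeight c b a := by
  simp [colWeight, eq_comm]

lemma sum_shift {n r : ℕ} [NeZero r] (a : Fin n) (g : (Fin n → Fin r) → ℝ) :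
    (r : ℝ) * ∑ c, g c = ∑ c, ∑ t : Fin r, g (c + (Pi.single a t : Fin n → Fin r)) := by
  rw [Finset.sum_comm]
  have h : ∀ t : Fin r, ∑ c, g (c + (Pi.single a t : Fin n → Fin r)) = ∑ c, g c := fun t =>
    Equiv.sum_comp (Equiv.addRight ((Pi.single a t : Fin n → Fin r))) g
  simp [h]

lemma colWeight_shift {n r : ℕ} [NeZero r] (c : Fin n → Fin r) {a b : Fin n} (hab : a ≠ b)
    (t : Fin r) : colWeight (c + (Pi.single a t : Fin n → Fin r)) a b
      = (if t = c b - c a then 1 else 0) - 1 / (r : ℝ) := by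
  have e : ((c + (Pi.single a t : Fin n → Fin r)) a = (c + (Pi.single a t : Fin n → Fin r)) b) ↔ t = c b - c a := by
    rw [Pi.add_apply, Pi.add_apply, Pi.single_eq_same, Pi.single_eq_of_ne (Ne.symm hab), add_zero,
      eq_sub_iff_add_eq, add_comm t]
  simp only [colWeight, if_neg hab, e]

lemma colWeight_shift_other {n r : ℕ} [NeZero r] (c : Fin n → Fin r) {a k l : Fin n} (hk : k ≠ a)
    (hl : l ≠ a) (t : Fin r) : colWeight (c + (Pi.single a t : Fin n → Fin r)) k l = colWeight c k l := by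
  simp [colWeight, Pi.single_eq_of_ne hk, Pi.single_eq_of_ne hl]

lemma sum_colWeight_eq_zero {n r : ℕ} [NeZero r] {a b k l : Fin n} (hab : a ≠ b) (hk : k ≠ a)
    (hl : l ≠ a) : ∑ c : Fin n → Fin r, colWeight c a b * colWeight c k l = 0 := by
  have h := sum_shift a fun c : Fin n → Fin r => colWeight c a b * colWeight c k l
  have h0 : ∀ c : Fin n → Fin r, ∑ t : Fin r,
      colWeight (c + (Pi.single a t : Fin n → Fin r)) a b * colWeight (c + (Pi.single a t : Fin n → Fin r)) k l = 0 := fun c => by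
    simp only [colWeight_shift c hab, colWeight_shift_other c hk hl]
    rw [← Finset.sum_mul, Finset.sum_sub_distrib, Finset.sum_ite_eq' Finset.univ (c b - c a)]
    simp [NeZero.ne r]
  rw [Finset.sum_eq_zero fun c _ => h0 c] at h
  exact (mul_eq_zero.1 h).resolve_left (Nat.cast_ne_zero.2 (NeZero.ne r))

lemma sum_colWeight_sq_le {n r : ℕ} [NeZero r] {a b : Fin n} (hab : a ≠ b) :
    ∑ c : Fin n → Fin r, colWeight c a b ^ 2 ≤ (r : ℝ) ^ n / r := by
  have hr : (0 : ℝ) < r := Nat.cast_pos.2 (NeZero.pos r)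
  have h := sum_shift a fun c : Fin n → Fin r => colWeight c a b ^ 2
  have h0 : ∀ c : Fin n → Fin r,
      ∑ t : Fin r, colWeight (c + (Pi.single a t : Fin n → Fin r)) a b ^ 2 ≤ 1 := fun c => by
    simp only [colWeight_shift c hab]
    have e : ∀ t : Fin r, ((if t = c b - c a then (1 : ℝ) else 0) - 1 / (r : ℝ)) ^ 2
        = (if t = c b - c a then 1 - 2 / (r : ℝ) else 0) + (1 / (r : ℝ)) ^ 2 := fun t => by
      split_ifs <;> ring
    rw [Finset.sum_congr rfl fun t _ => e t, Finset.sum_add_distrib, Finset.sum_ite_eq']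
    simp only [Finset.mem_univ, if_true, Finset.sum_const, Finset.card_univ, Fintype.card_fin,
      nsmul_eq_mul]
    have h1 : (r : ℝ) * (1 / r) ^ 2 = 1 / r := by field_simp
    have h2 : 0 ≤ 1 / (r : ℝ) := by positivity
    rw [h1, show (2 : ℝ) / r = 2 * (1 / r) by ring]
    linarith
  rw [le_div_iff₀ hr, mul_comm, h]
  refine (Finset.sum_le_sum fun c _ => h0 c).trans_eq ?_
  simp [Fintype.card_fun]

lemma abs_sum_colWeight_le {n r : ℕ} [NeZero r] (a b k l : Fin n) :
    |∑ c : Fin n → Fin r, colWeight c a b * colWeight c k l|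
      ≤ ((if (k, l) = (a, b) then 1 else 0) + (if (k, l) = (b, a) then 1 else 0))
          * ((r : ℝ) ^ n / r) := by
  by_cases h : (k, l) = (a, b) ∨ (k, l) = (b, a)
  · have e : ∀ c : Fin n → Fin r, colWeight c a b * colWeight c k l = colWeight c a b ^ 2 := by
      intro c
      rcases h with h | h <;>
        obtain ⟨rfl, rfl⟩ := Prod.mk.injEq .. ▸ h
      · exact (sq _).symm
      · rw [colWeight_symm c k l, sq]
    have hK : |∑ c : Fin n → Fin r, colWeight c a b * colWeight c k l| ≤ (r : ℝ) ^ n / r := by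
      rw [Finset.sum_congr rfl fun c _ => e c,
        abs_of_nonneg (Finset.sum_nonneg fun c _ => sq_nonneg _)]
      by_cases hab : a = b
      · simp [colWeight, hab]; positivity
      · exact sum_colWeight_sq_le hab
    refine hK.trans (le_mul_of_one_le_left (by positivity) ?_)
    rcases h with h | h <;> simp only [h, if_true] <;> split_ifs <;> norm_num
  · push Not at h
    have h0 : ∑ c : Fin n → Fin r, colWeight c a b * colWeight c k l = 0 := by
      by_cases hab : a = b
      · simp [colWeight, hab]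
      by_cases hkl : k = l
      · simp [colWeight, hkl]
      by_cases ha : k ≠ a ∧ l ≠ a
      · exact sum_colWeight_eq_zero hab ha.1 ha.2
      by_cases hb : k ≠ b ∧ l ≠ b
      · refine (Finset.sum_congr rfl fun c _ => ?_).trans (sum_colWeight_eq_zero (Ne.symm hab) hb.1 hb.2)
        rw [colWeight_symm c a b]
      exfalso
      simp only [not_and_or, not_ne_iff] at ha hb
      simp only [ne_eq, Prod.mk.injEq] at h
      rcases ha with ha | ha <;> rcases hb with hb | hb
      · exact hab (ha.symm.trans hb)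
      · exact h.1 ⟨ha, hb⟩
      · exact h.2 ⟨hb, ha⟩
      · exact hab (ha.symm.trans hb)
    rw [h0, abs_zero]
    positivity

/-- A colouring with `r` colours making the centred off-diagonal sum small. -/
theorem exists_colouring {n r : ℕ} [NeZero r] (W : Fin n → Fin n → E) :
    ∃ c : Fin n → Fin r, ‖∑ a, ∑ b, (colWeight c a b : ℂ) • W a b‖ ^ 2
      ≤ 2 / (r : ℝ) * ∑ a, ∑ b, ‖W a b‖ ^ 2 := by
  have hexp : ∀ c : Fin n → Fin r, ‖∑ a, ∑ b, (colWeight c a b : ℂ) • W a b‖ ^ 2
      = ∑ ab : Fin n × Fin n, ∑ kl : Fin n × Fin n,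
          colWeight c ab.1 ab.2 * colWeight c kl.1 kl.2
            * (⟪W ab.1 ab.2, W kl.1 kl.2⟫_ℂ).re := fun c => by
    rw [← Fintype.sum_prod_type', ← inner_self_eq_norm_sq (𝕜 := ℂ), sum_inner, map_sum]
    refine Finset.sum_congr rfl fun ab _ => ?_
    rw [inner_sum, map_sum]
    refine Finset.sum_congr rfl fun kl _ => ?_
    rw [inner_smul_left, inner_smul_right, Complex.conj_ofReal, RCLike.re_to_complex,
      Complex.re_ofReal_mul, Complex.re_ofReal_mul, mul_assoc]
  have hbound : ∑ c : Fin n → Fin r, ‖∑ a, ∑ b, (colWeight c a b : ℂ) • W a b‖ ^ 2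
      ≤ ∑ _c : Fin n → Fin r, 2 / (r : ℝ) * ∑ a, ∑ b, ‖W a b‖ ^ 2 := by
    rw [Finset.sum_congr rfl fun c _ => hexp c, Finset.sum_comm]
    have hterm : ∀ ab : Fin n × Fin n, ∑ c : Fin n → Fin r, ∑ kl : Fin n × Fin n,
        colWeight c ab.1 ab.2 * colWeight c kl.1 kl.2 * (⟪W ab.1 ab.2, W kl.1 kl.2⟫_ℂ).re
        ≤ (r : ℝ) ^ n / r * (‖W ab.1 ab.2‖ ^ 2 + ‖W ab.1 ab.2‖ * ‖W ab.2 ab.1‖) := by
      rintro ⟨a, b⟩
      rw [Finset.sum_comm]
      simp only [← Finset.sum_mul]
      refine (Finset.sum_le_sum fun kl _ => (le_abs_self _).trans ((abs_mul _ _).trans_le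
        (mul_le_mul (abs_sum_colWeight_le a b kl.1 kl.2) ((Complex.abs_re_le_norm _).trans
          (norm_inner_le_norm _ _)) (abs_nonneg _) (by positivity)))).trans_eq ?_
      simp only [Prod.mk.eta, add_mul, Finset.sum_add_distrib, ite_mul, one_mul, zero_mul,
        Finset.sum_ite_eq', Finset.mem_univ, if_true]
      ring
    refine (Finset.sum_le_sum fun ab _ => hterm ab).trans ?_
    rw [← Finset.mul_sum, Finset.sum_const, Finset.card_univ, Fintype.card_fun, Fintype.card_fin,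
      Fintype.card_fin, nsmul_eq_mul, Nat.cast_pow, ← Fintype.sum_prod_type']
    have hswap : ∑ ab : Fin n × Fin n, ‖W ab.2 ab.1‖ ^ 2 = ∑ ab : Fin n × Fin n, ‖W ab.1 ab.2‖ ^ 2 :=
      Equiv.sum_comp (Equiv.prodComm (Fin n) (Fin n)) fun ab => ‖W ab.1 ab.2‖ ^ 2
    have hamgm : ∑ ab : Fin n × Fin n, (‖W ab.1 ab.2‖ ^ 2 + ‖W ab.1 ab.2‖ * ‖W ab.2 ab.1‖)
        ≤ 2 * ∑ ab : Fin n × Fin n, ‖W ab.1 ab.2‖ ^ 2 := by
      refine (Finset.sum_le_sum (g := fun ab =>
        3 / 2 * ‖W ab.1 ab.2‖ ^ 2 + 1 / 2 * ‖W ab.2 ab.1‖ ^ 2) fun ab _ => by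
          linarith [two_mul_le_add_sq ‖W ab.1 ab.2‖ ‖W ab.2 ab.1‖]).trans_eq ?_
      rw [Finset.sum_add_distrib, ← Finset.mul_sum, ← Finset.mul_sum, hswap]
      ring
    refine (mul_le_mul_of_nonneg_left hamgm (by positivity)).trans_eq ?_
    ring
  have : Nonempty (Fin n → Fin r) := ⟨fun _ => 0⟩
  obtain ⟨c, -, hc⟩ := Finset.exists_le_of_sum_le Finset.univ_nonempty hbound
  exact ⟨c, hc⟩

end Semi

end Vale.Agent.P078
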