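import Mathlib
import Vale.Agent.P078.Semi.Average
import Vale.Agent.P078.Semi.Colour

/-!
# Turning convex combinations of pinchings into one pinching
-/

open scoped InnerProductSpace
open ContinuousLinearMap

namespace Vale.Agent.P078

universe u

variable {H : Type u} [NormedAddCommGroup H] [InnerProductSpace ℂ H] [CompleteSpace H]

namespace Semi

variable {A : StarSubalgebra ℂ (H →L[ℂ] H)} {e : H →L[ℂ] H} {M : VonNeumannAlgebra H}
  {ι : Type u} {ξ : ι → H} {x p : H →L[ℂ] H}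

lemma Pn.T_T_of_ge (hA : ∀ a ∈ A, ∀ b ∈ A, a * b = b * a) {Q Q' : Pn A e} (hle : Q ≤ Q')
    (x : H →L[ℂ] H) : Q.T (Q'.T x) = Q'.T x := by
  have h : ∀ j, ∑ k, Q.f k * (Q'.f j * x * Q'.f j) * Q.f k = Q'.f j * x * Q'.f j := fun j => by
    obtain ⟨i, hi⟩ := hle j
    have hi' : Q.f i * Q'.f j = Q'.f j := by rw [hA _ (Q.mem i) _ (Q'.mem j), hi]
    rw [Finset.sum_eq_single i]
    · rw [← mul_assoc, ← mul_assoc, hi', mul_assoc _ (Q'.f j), hi]
    · intro k _ hk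
      rw [← mul_assoc, ← mul_assoc, (Pn.f_mul_of_le hA hi k hk).2, zero_mul, zero_mul, zero_mul]
    · simp
  rw [Pn.T, Pn.T]
  simp_rw [Finset.mul_sum, Finset.sum_mul]
  rw [Finset.sum_comm]
  exact Finset.sum_congr rfl fun j _ => h j

/-- Gluing: on the `i`-th piece of `Q` use the partition `R i`. -/
noncomputable def Pn.glue (hA : ∀ a ∈ A, ∀ b ∈ A, a * b = b * a) (Q : Pn A e)
    (R : Fin Q.n → Pn A e) : Pn A e where
  n := ∑ i, (R i).n
  f k := Q.f (finSigmaFinEquiv.symm k).1 *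
    (R (finSigmaFinEquiv.symm k).1).f (finSigmaFinEquiv.symm k).2
  mem k := mul_mem (Q.mem _) ((R _).mem _)
  proj k := (Q.proj _).mul ((R _).proj _) (hA _ (Q.mem _) _ ((R _).mem _))
  orth k l hkl := by
    have hne : finSigmaFinEquiv.symm k ≠ finSigmaFinEquiv.symm l :=
      fun h => hkl (finSigmaFinEquiv.symm.injective h)
    generalize finSigmaFinEquiv.symm k = a at hne ⊢
    generalize finSigmaFinEquiv.symm l = b at hne ⊢
    obtain ⟨i, g⟩ := a
    obtain ⟨i', g'⟩ := b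
    show Q.f i * (R i).f g * (Q.f i' * (R i').f g') = 0
    rw [mul_assoc, ← mul_assoc ((R i).f g), hA _ ((R i).mem g) _ (Q.mem i'), mul_assoc,
      ← mul_assoc]
    by_cases h : i = i'
    · subst h
      rw [(R i).orth g g' fun h2 => hne (by rw [h2]), mul_zero]
    · rw [Q.orth i i' h, zero_mul]
  sum_eq := by
    rw [Equiv.sum_comp finSigmaFinEquiv.symm (fun ig : (i : Fin Q.n) × Fin (R i).n =>
      Q.f ig.1 * (R ig.1).f ig.2), Fintype.sum_sigma]
    simp_rw [← Finset.mul_sum, (R _).sum_eq, Q.f_mul_e]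
    exact Q.sum_eq

lemma Pn.le_glue (hA : ∀ a ∈ A, ∀ b ∈ A, a * b = b * a) (Q : Pn A e) (R : Fin Q.n → Pn A e) :
    Q ≤ Pn.glue hA Q R := fun k => by
  refine ⟨(finSigmaFinEquiv.symm k).1, ?_⟩
  show Q.f _ * (R _).f _ * Q.f _ = Q.f _ * (R _).f _
  rw [mul_assoc, hA _ ((R _).mem _) _ (Q.mem _), ← mul_assoc, (Q.proj _).isIdempotentElem.eq]

lemma Pn.glue_T (hA : ∀ a ∈ A, ∀ b ∈ A, a * b = b * a) (Q : Pn A e) (R : Fin Q.n → Pn A e)
    (x : H →L[ℂ] H) : (Pn.glue hA Q R).T x = ∑ i, Q.f i * (R i).T x * Q.f i := by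
  show ∑ k : Fin (∑ i, (R i).n), _ = _
  refine (Equiv.sum_comp finSigmaFinEquiv.symm (fun ig : (i : Fin Q.n) × Fin (R i).n =>
      Q.f ig.1 * (R ig.1).f ig.2 * x * (Q.f ig.1 * (R ig.1).f ig.2))).trans ?_
  rw [Fintype.sum_sigma]
  refine Finset.sum_congr rfl fun i _ => ?_
  rw [Pn.T, Finset.mul_sum, Finset.sum_mul]
  refine Finset.sum_congr rfl fun g _ => ?_
  show Q.f i * (R i).f g * x * (Q.f i * (R i).f g) = _
  rw [hA _ (Q.mem i) _ ((R i).mem g)]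
  nth_rw 1 [← hA _ (Q.mem i) _ ((R i).mem g)]
  noncomm_ring

/-- One partition `Q ≥ Q₀` whose pinching approximates the averaged limit inside `p`. -/
lemma exists_single_pinching (hA : IsMASA M A) (hξ : IsFaithfulSemifiniteTrace M ξ)
    (hxM : x ∈ M) (hp : IsStarProjection p) (hpM : p ∈ M) (hpHS : HS ξ p) {a : H →L[ℂ] H}
    (Q₀ : Pn A e)
    (ha : jv ξ (p * a * p) ∈
      closure (convexHull ℝ ((fun Q : Pn A e => jv ξ (p * Q.T x * p)) '' Set.Ici Q₀)))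
    {τ : ℝ} (hτ : 0 < τ) :
    ∃ Q : Pn A e, Q₀ ≤ Q ∧
      ‖jv ξ (p * Q.T x * p) - jv ξ (p * a * p)‖ ≤ τ + 2 * ‖x‖ * ‖jv ξ (Q₀.T p)‖ := by
  obtain ⟨c, hc, hcd⟩ := Metric.mem_closure_iff.1 ha τ hτ
  obtain ⟨κ, _, w, z, hw, hw1, hz, hwz⟩ := mem_convexHull_iff_exists_fintype.1 hc
  choose R hR hzR using hz
  have : Nonempty κ := by
    by_contra h
    rw [not_nonempty_iff] at h
    simp at hw1
  have hfM : ∀ i, Q₀.f i ∈ M := fun i => hA.1 _ (Q₀.mem i)
  let V : Fin Q₀.n → κ → lp (fun _ : ι => H) 2 := fun i k =>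
    jv ξ (p * Q₀.f i * (R k).T x * Q₀.f i * p)
  let μ : Fin Q₀.n → lp (fun _ : ι => H) 2 := fun i => ∑ k, (w k : ℂ) • V i k
  let b : Fin Q₀.n → ℝ := fun i => ‖jv ξ (Q₀.f i * p * Q₀.f i)‖
  have hV : ∀ i k, ‖V i k‖ ≤ ‖x‖ * b i := fun i k =>
    (norm_sandwich_le hξ hp (Q₀.proj i) hpM (hfM i) hpHS ((R k).T_mem hA hxM)).trans
      (mul_le_mul_of_nonneg_right ((R k).norm_T_le x) (norm_nonneg _))
  have hμ : ∀ i, ‖μ i‖ ≤ ‖x‖ * b i := fun i => by
    refine (norm_sum_le _ _).trans ((Finset.sum_le_sum fun k _ => (?_ : _ ≤ w k * (‖x‖ * b i))).trans_eq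
      (by rw [← Finset.sum_mul, hw1, one_mul]))
    rw [norm_smul, Complex.norm_real, Real.norm_of_nonneg (hw k)]
    exact mul_le_mul_of_nonneg_left (hV i k) (hw k)
  obtain ⟨f, hf⟩ := exists_greedy Finset.univ (fun i k => V i k - μ i) w hw hw1
    (fun i _ => by
      simp only [smul_sub, Finset.sum_sub_distrib, ← Finset.sum_smul, ← Complex.ofReal_sum, hw1,
        Complex.ofReal_one, one_smul]
      exact sub_self _)
    (fun i => (2 * (‖x‖ * b i)) ^ 2)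
    (fun i _ k => pow_le_pow_left₀ (norm_nonneg _)
      ((norm_sub_le _ _).trans (by linarith [hV i k, hμ i])) 2)
  let Q := Pn.glue hA.2.1 Q₀ fun i => R (f i)
  refine ⟨Q, Pn.le_glue _ _ _, ?_⟩
  have hblock : ∀ (T : H →L[ℂ] H) (i : Fin Q₀.n), HS ξ (p * Q₀.f i * T * Q₀.f i * p) := fun T i =>
    hpHS.mul_left _
  have e1 : jv ξ (p * Q.T x * p) = ∑ i, V i (f i) := by
    rw [Pn.glue_T, Finset.mul_sum, Finset.sum_mul, ← jv_sum fun i _ => hblock _ i]
    exact congrArg (jv ξ) (Finset.sum_congr rfl fun i _ => by noncomm_ring)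
  have e2 : c = ∑ i, μ i := by
    rw [← hwz, Finset.sum_comm]
    refine Finset.sum_congr rfl fun k _ => ?_
    rw [← Finset.smul_sum, Complex.coe_smul, ← hzR k, ← jv_sum fun i _ => hblock _ i]
    refine congrArg (fun T => w k • jv ξ T) ?_
    conv_lhs => rw [← Pn.T_T_of_ge hA.2.1 (hR k) x, Pn.T, Finset.mul_sum, Finset.sum_mul]
    exact Finset.sum_congr rfl fun i _ => by noncomm_ring
  have e3 : ‖jv ξ (p * Q.T x * p) - c‖ ≤ 2 * ‖x‖ * ‖jv ξ (Q₀.T p)‖ := by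
    rw [e1, e2, ← Finset.sum_sub_distrib]
    refine le_of_pow_le_pow_left₀ two_ne_zero (by positivity) (hf.trans_eq ?_)
    simp only [mul_pow, b]
    rw [← Finset.mul_sum, ← Finset.mul_sum, Q₀.sum_norm_sq_diag hξ hA hpM hpHS]
    ring
  rw [dist_eq_norm, norm_sub_rev] at hcd
  linarith [norm_sub_le_norm_sub_add_norm_sub (jv ξ (p * Q.T x * p)) c (jv ξ (p * a * p))]

end Semi

end Vale.Agent.P078
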