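import Mathlib
import Vale.Agent.P078.Semi.Cluster

/-!
# Paving over the part of a MASA without finite projections
-/

open scoped InnerProductSpace
open ContinuousLinearMap

namespace Vale.Agent.P078

universe u

variable {H : Type u} [NormedAddCommGroup H] [InnerProductSpace ℂ H] [CompleteSpace H]

namespace Semi

variable {A : StarSubalgebra ℂ (H →L[ℂ] H)} {e : H →L[ℂ] H} {M : VonNeumannAlgebra H}
  {ι : Type u} {ξ : ι → H} {x p : H →L[ℂ] H}

lemma exists_finite_proj_below (hξ : IsFaithfulSemifiniteTrace M ξ) (he : IsStarProjection e)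
    (heM : e ∈ M) (F : Finset H) {δ : ℝ} (hδ : 0 < δ) :
    ∃ P ∈ M, IsStarProjection P ∧ HS ξ P ∧ P * e = P ∧ ∀ v ∈ F, ‖(e - P) v‖ ≤ δ := by
  classical
  obtain ⟨p₀, hp₀M, hp₀, hp₀HS, hp₀F⟩ := hξ.2.2 (F.image fun v => e v) (δ / 2) (half_pos hδ)
  set y := p₀ * e with hy
  have hyHS : HS ξ y := HS.mul_right hξ hp₀M hp₀HS heM
  obtain ⟨P, hP, hPc, hPle, hPsm, hPorth⟩ := exists_sq_cut y (η := (1 / 2 : ℝ)) (by norm_num)
  have hyM : y ∈ M := mul_mem hp₀M heM
  have hbM : star y * y ∈ M := mul_mem (star_mem hyM) hyM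
  have hPM : P ∈ M := mem_vn fun z hz => hPc z (commute_commutant hbM hz)
  have hPHS : HS ξ P := hs_of_le hyHS (C := 2) fun i => by linarith [hPle (ξ i)]
  have hPe : P * e = P := by
    ext v
    show P (e v) = P v
    have h := hPle (v - e v)
    have h0 : y (v - e v) = 0 := by
      show p₀ (e (v - e v)) = 0
      rw [map_sub e, apply_mul e e, he.isIdempotentElem.eq, sub_self, map_zero]
    rw [h0, norm_zero, map_sub] at h
    have h1 : P v - P (e v) = 0 := norm_le_zero_iff.1 (by linarith)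
    exact (sub_eq_zero.1 h1).symm
  have heP : e * P = P := by
    have h := congrArg star hPe
    rwa [star_mul, hP.isSelfAdjoint.star_eq, he.isSelfAdjoint.star_eq] at h
  refine ⟨P, hPM, hP, hPHS, hPe, fun v hv => ?_⟩
  set u := e v with hu
  set w := (1 - P) u with hw
  have hwe : (e - P) v = w := by
    show e v - P v = u - P u
    rw [hu, apply_mul P e, hPe]
  rw [hwe]
  have hew : e w = w := by
    show e (u - P u) = u - P u
    rw [map_sub, hu, apply_mul e e, he.isIdempotentElem.eq, apply_mul e P, heP]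
  have hyw : y w = p₀ w := congrArg p₀ hew
  have hPw : P w = 0 := by
    show P (u - P u) = 0
    rw [map_sub, apply_mul P P, hP.isIdempotentElem.eq, sub_self]
  have hyu : p₀ u = y (P u) + y w := by
    rw [← map_add]
    show p₀ u = p₀ (e (P u + (u - P u)))
    rw [add_sub_cancel, hu, apply_mul e e, he.isIdempotentElem.eq]
  have h1 : ⟪p₀ w, p₀ u⟫_ℂ = ⟪p₀ w, p₀ w⟫_ℂ := by
    rw [hyu, inner_add_right, ← hyw, ← inner_conj_symm, hw, hPorth u]
    simp
  have h2 : ⟪w, u⟫_ℂ = ⟪w, w⟫_ℂ := by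
    have h3 : ⟪w, P u⟫_ℂ = 0 := by rw [← proj_inner hP, hPw, inner_zero_left]
    show _ = ⟪w, u - P u⟫_ℂ
    rw [inner_sub_right, h3, sub_zero]
  have h3 : ⟪w, u⟫_ℂ = ⟪p₀ w, p₀ u⟫_ℂ + ⟪(1 - p₀) w, (1 - p₀) u⟫_ℂ := by
    rw [proj_inner hp₀, proj_inner hp₀.one_sub, ← inner_add_right, apply_mul p₀ p₀,
      hp₀.isIdempotentElem.eq, apply_mul (1 - p₀) (1 - p₀), hp₀.one_sub.isIdempotentElem.eq]
    congr 1
    show u = p₀ u + (u - p₀ u)
    rw [add_sub_cancel]
  rw [h2, h1] at h3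
  have h4 := congrArg Complex.re h3
  rw [Complex.add_re] at h4
  simp only [← RCLike.re_to_complex, inner_self_eq_norm_sq] at h4
  have h5 : ‖p₀ w‖ ≤ 1 / 2 * ‖w‖ := by
    have := hPsm u
    rwa [← hw, hyw] at this
  have h6 := (re_inner_le_norm (𝕜 := ℂ) ((1 - p₀) w) ((1 - p₀) u)).trans
    (mul_le_mul (norm_proj_apply_le hp₀.one_sub w) (hp₀F u (Finset.mem_image_of_mem _ hv)).le
      (norm_nonneg _) (norm_nonneg _))
  by_contra hlt
  push Not at hlt
  nlinarith [pow_le_pow_left₀ (norm_nonneg (p₀ w)) h5 2, norm_nonneg w]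

/-- The partition by colour classes. -/
noncomputable def colourClass (Q : Pn A e) {r : ℕ} (c : Fin Q.n → Fin r) (α : Fin r) :
    H →L[ℂ] H := ∑ a, if c a = α then Q.f a else 0

lemma colourClass_props (Q : Pn A e) {r : ℕ} (c : Fin Q.n → Fin r) :
    (∀ α, colourClass Q c α ∈ A) ∧ (∀ α, IsStarProjection (colourClass Q c α)) ∧
      (∀ α β, α ≠ β → colourClass Q c α * colourClass Q c β = 0) ∧
      ∑ α, colourClass Q c α = e := by
  have hmul : ∀ α β, colourClass Q c α * colourClass Q c β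
      = ∑ a, if c a = α ∧ c a = β then Q.f a else 0 := fun α β => by
    rw [colourClass, colourClass, Finset.sum_mul]
    refine Finset.sum_congr rfl fun a _ => ?_
    rw [Finset.mul_sum, Finset.sum_eq_single a]
    · by_cases h1 : c a = α
      · by_cases h2 : c a = β
        · rw [if_pos h1, if_pos h2, if_pos ⟨h1, h2⟩, (Q.proj a).isIdempotentElem.eq]
        · rw [if_neg h2, if_neg (fun h : c a = α ∧ c a = β => h2 h.2), mul_zero]
      · rw [if_neg h1, if_neg (fun h : c a = α ∧ c a = β => h1 h.1), zero_mul]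
    · intro b _ hb
      split_ifs <;> simp [Q.orth a b (Ne.symm hb)]
    · simp
  refine ⟨fun α => sum_mem fun a _ => ?_, fun α => ⟨?_, ?_⟩, fun α β hne => ?_, ?_⟩
  · split_ifs
    · exact Q.mem a
    · exact zero_mem _
  · show colourClass Q c α * colourClass Q c α = _
    rw [hmul]; simp [colourClass]
  · show star _ = _
    rw [colourClass, star_sum]
    refine Finset.sum_congr rfl fun a _ => ?_
    split_ifs
    · exact (Q.proj a).isSelfAdjoint.star_eq
    · exact star_zero _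
  · rw [hmul]
    refine Finset.sum_eq_zero fun a _ => if_neg ?_
    rintro ⟨h1, h2⟩
    exact hne (h1.symm.trans h2)
  · simp only [colourClass]
    rw [Finset.sum_comm]
    simp [Q.sum_eq]

lemma colour_expand (Q : Pn A e) {r : ℕ} (c : Fin Q.n → Fin r) (p x : H →L[ℂ] H) (hpe : p * e = p)
    (hep : e * p = p) :
    p * (∑ α, colourClass Q c α * x * colourClass Q c α) * p - (1 / (r : ℂ)) • (p * x * p)
      = ∑ a, ∑ b, (colWeight c a b : ℂ) • (p * Q.f a * x * Q.f b * p)
        + (1 - 1 / (r : ℂ)) • (p * Q.T x * p) := by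
  have e1 : p * (∑ α, colourClass Q c α * x * colourClass Q c α) * p
      = ∑ a, ∑ b, (if c a = c b then (1 : ℂ) else 0) • (p * Q.f a * x * Q.f b * p) := by
    simp only [colourClass, Finset.mul_sum, Finset.sum_mul]
    rw [Finset.sum_comm]
    simp_rw [Finset.sum_comm (γ := Fin r)]
    rw [Finset.sum_comm]
    refine Finset.sum_congr rfl fun a _ => Finset.sum_congr rfl fun b _ => ?_
    rw [Finset.sum_eq_single (c a)]
    · rw [if_pos rfl]
      by_cases h : c a = c b
      · rw [if_pos h.symm, if_pos h, one_smul]; noncomm_ring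
      · rw [if_neg (Ne.symm h), if_neg h, zero_smul]; simp
    · intro α _ hα
      rw [if_neg (Ne.symm hα)]; simp
    · simp
  have e2 : p * x * p = ∑ a, ∑ b, p * Q.f a * x * Q.f b * p := by
    conv_lhs => rw [show p * x * p = p * e * x * (e * p) by rw [hpe, hep]]
    conv_lhs => rw [show p * e * x * (e * p) = p * (∑ i, Q.f i) * x * ((∑ i, Q.f i) * p) by
      simp only [Q.sum_eq]]
    simp only [Finset.mul_sum, Finset.sum_mul, mul_assoc]
    rw [Finset.sum_comm]
  have e3 : p * Q.T x * p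
      = ∑ a, ∑ b, (if a = b then (1 : ℂ) else 0) • (p * Q.f a * x * Q.f b * p) := by
    simp only [Pn.T, Finset.mul_sum, Finset.sum_mul]
    refine Finset.sum_congr rfl fun a _ => ?_
    rw [Finset.sum_eq_single a]
    · rw [if_pos rfl, one_smul]; noncomm_ring
    · intro b _ hb
      rw [if_neg (Ne.symm hb), zero_smul]
    · simp
  rw [e1, e2, e3, Finset.smul_sum, Finset.smul_sum, ← Finset.sum_sub_distrib,
    ← Finset.sum_add_distrib]
  refine Finset.sum_congr rfl fun a _ => ?_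
  rw [Finset.smul_sum, Finset.smul_sum, ← Finset.sum_sub_distrib, ← Finset.sum_add_distrib]
  refine Finset.sum_congr rfl fun b _ => ?_
  rw [smul_smul, ← sub_smul, ← add_smul]
  congr 1
  unfold colWeight
  by_cases hab : a = b
  · subst hab; simp
  · rw [if_neg hab, if_neg hab]
    split_ifs <;> simp

lemma exists_small_remainder (hA : IsMASA M A) (hξ : IsFaithfulSemifiniteTrace M ξ)
    (he : IsStarProjection e) (heA : e ∈ A) (hnf : ∀ f, IsFiniteProj A ξ f → f * e = 0)
    {r : ℕ} [NeZero r] (hxM : x ∈ M) (hp : IsStarProjection p) (hpM : p ∈ M) (hpHS : HS ξ p)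
    (hpe : p * e = p) {a : H →L[ℂ] H}
    (ha : ∀ Q₀ : Pn A e, jv ξ (p * a * p) ∈
      closure (convexHull ℝ ((fun Q : Pn A e => jv ξ (p * Q.T x * p)) '' Set.Ici Q₀)))
    {τ : ℝ} (hτ : 0 < τ) :
    ∃ (Q : Pn A e) (c : Fin Q.n → Fin r),
      ‖jv ξ (p * (∑ α, colourClass Q c α * x * colourClass Q c α) * p
          - (1 / (r : ℂ)) • (p * x * p) - (1 - 1 / (r : ℂ)) • (p * a * p))‖ ≤ τ := by
  have hep : e * p = p := by
    have h := congrArg star hpe
    rwa [star_mul, hp.isSelfAdjoint.star_eq, he.isSelfAdjoint.star_eq] at h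
  set ρ := τ / (2 * (2 + 4 * ‖x‖)) with hρdef
  have hρ : 0 < ρ := by positivity
  obtain ⟨Q₀, hQ₀⟩ := exists_small_diag hA hξ he heA hnf hpM hpHS hρ
  obtain ⟨Q, hQ, hQa⟩ := exists_single_pinching hA hξ hxM hp hpM hpHS Q₀ (ha Q₀) hρ
  obtain ⟨c, hc⟩ := exists_colouring (r := r) fun i j => jv ξ (p * Q.f i * x * Q.f j * p)
  refine ⟨Q, c, ?_⟩
  rw [colour_expand Q c p x hpe hep, add_sub_assoc, ← smul_sub]
  have hW : ∀ i j, HS ξ (p * Q.f i * x * Q.f j * p) := fun i j => hpHS.mul_left _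
  have hTM : p * Q.T x * p ∈ M := mul_mem (mul_mem hpM (Q.T_mem hA hxM)) hpM
  have hT : HS ξ (p * Q.T x * p) := hpHS.mul_left _
  have hAp : HS ξ (p * a * p) := hpHS.mul_left _
  rw [jv_add (HS.sum fun i _ => HS.sum fun j _ => (hW i j).smul _) ((hT.sub hAp).smul _),
    jv_sum fun i _ => HS.sum fun j _ => (hW i j).smul _]
  simp only [jv_sum fun j _ => (hW _ j).smul _, jv_smul (hW _ _), jv_smul (hT.sub hAp),
    jv_sub hT hAp]
  refine (norm_add_le _ _).trans ?_
  have hr : (1 : ℝ) ≤ r := Nat.one_le_cast.2 NeZero.one_le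
  have hd : ‖jv ξ (Q.T p)‖ ≤ ρ :=
    (le_of_pow_le_pow_left₀ two_ne_zero (norm_nonneg _)
      (Pn.norm_T_anti hξ hA hQ hpM hpHS)).trans hQ₀
  have h1 : ‖∑ i, ∑ j, (colWeight c i j : ℂ) • jv ξ (p * Q.f i * x * Q.f j * p)‖ ≤ 2 * ‖x‖ * ρ := by
    refine le_of_pow_le_pow_left₀ two_ne_zero (by positivity) (hc.trans ?_)
    refine (mul_le_mul_of_nonneg_left (Q.sum_sum_le hξ hA hp hpM hpHS hxM) (by positivity)).trans ?_
    have h2r : 2 / (r : ℝ) ≤ 4 := by rw [div_le_iff₀ (by linarith)]; linarith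
    refine (mul_le_mul h2r (mul_le_mul_of_nonneg_left (pow_le_pow_left₀ (norm_nonneg _) hd 2)
      (sq_nonneg _)) (by positivity) (by norm_num)).trans_eq ?_
    ring
  have h2 : ‖(1 - 1 / (r : ℂ)) • (jv ξ (p * Q.T x * p) - jv ξ (p * a * p))‖
      ≤ ρ + 2 * ‖x‖ * ρ := by
    rw [norm_smul]
    refine (mul_le_of_le_one_left (norm_nonneg _) ?_).trans (hQa.trans ?_)
    · have e : (1 - 1 / (r : ℂ)) = ((1 - 1 / (r : ℝ) : ℝ) : ℂ) := by push_cast; ring
      rw [e, Complex.norm_real, Real.norm_of_nonneg]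
      · linarith [show 0 ≤ 1 / (r : ℝ) by positivity]
      · rw [sub_nonneg, div_le_one (by linarith)]; exact hr
    · gcongr
  have h3 : ρ * (2 * (2 + 4 * ‖x‖)) = τ := by rw [hρdef]; field_simp
  nlinarith [norm_nonneg x]

theorem inf_part_paving (hA : IsMASA M A) (hξ : IsFaithfulSemifiniteTrace M ξ)
    (he : IsStarProjection e) (heA : e ∈ A) (hnf : ∀ f, IsFiniteProj A ξ f → f * e = 0)
    {ε : ℝ} (hε : 0 < ε) {r : ℕ} (hr : 2 ≤ ε * r) (hxM : x ∈ M) (hxs : IsSelfAdjoint x)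
    (F : Finset H) {δ : ℝ} (hδ : 0 < δ) :
    ∃ (P : Fin r → H →L[ℂ] H) (a q : H →L[ℂ] H),
      (∀ i, P i ∈ A) ∧ (∀ i, IsStarProjection (P i)) ∧ (∀ i j, i ≠ j → P i * P j = 0) ∧
      ∑ i, P i = e ∧ a ∈ A ∧ IsSelfAdjoint a ∧ a * e = a ∧ ‖a‖ ≤ ‖x‖ ∧ q ∈ M ∧
      IsStarProjection q ∧ q * e = q ∧ (∀ v ∈ F, ‖(e - q) v‖ < δ) ∧
      ‖q * ((∑ i, P i * x * P i) - a) * q‖ ≤ ε * ‖x‖ := by
  have hr0 : r ≠ 0 := by rintro rfl; norm_num at hr
  have : NeZero r := ⟨hr0⟩
  have hr1 : (1 : ℝ) ≤ r := Nat.one_le_cast.2 NeZero.one_le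
  rcases eq_or_ne x 0 with rfl | hx0
  · let Q := Pn.one he heA
    obtain ⟨h1, h2, h3, h4⟩ := colourClass_props Q (fun _ : Fin Q.n => (0 : Fin r))
    exact ⟨colourClass Q fun _ => 0, 0, e, h1, h2, h3, h4, zero_mem _, IsSelfAdjoint.zero _,
      zero_mul e, by simp, hA.1 e heA, he, he.isIdempotentElem.eq, fun v _ => by simpa using hδ,
      by simp⟩
  obtain ⟨a₀, ha₀A, ha₀s, ha₀e, ha₀n, ha₀c⟩ := exists_average (ξ := ξ) hA he heA hxM hxs
  obtain ⟨p, hpM, hp, hpHS, hpe, hpF⟩ := exists_finite_proj_below hξ he (hA.1 e heA) F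
    (δ := δ / 4) (by positivity)
  obtain ⟨δ', hδ', hsm⟩ := small_at hξ 1 F (δ := δ / 4) (by positivity)
  set η := ε * ‖x‖ / 2 with hηdef
  have hη : 0 < η := by have := norm_pos_iff.2 hx0; positivity
  obtain ⟨Q, c, hQc⟩ := exists_small_remainder (r := r) hA hξ he heA hnf hxM hp hpM hpHS hpe
    (ha₀c p hpM hp hpHS) (τ := η * δ') (by positivity)
  obtain ⟨hcA, hcp, hco, hcs⟩ := colourClass_props Q c
  set S := ∑ α, colourClass Q c α * x * colourClass Q c α
  set a := (1 - 1 / (r : ℂ)) • a₀ with hadef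
  set y := p * (S - a) * p - (1 / (r : ℂ)) • (p * x * p) with hydef
  have hy_eq : y = p * S * p - (1 / (r : ℂ)) • (p * x * p) - (1 - 1 / (r : ℂ)) • (p * a₀ * p) := by
    rw [hydef, hadef, mul_sub, sub_mul, mul_smul_comm, smul_mul_assoc]
    abel
  rw [← hy_eq] at hQc
  have hSM : S ∈ M :=
    sum_mem fun α _ => mul_mem (mul_mem (hA.1 _ (hcA α)) hxM) (hA.1 _ (hcA α))
  have haA : a ∈ A := A.smul_mem ha₀A _
  have hyM : y ∈ M := sub_mem (mul_mem (mul_mem hpM (sub_mem hSM (hA.1 a haA))) hpM)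
    (M.toStarSubalgebra.smul_mem (mul_mem (mul_mem hpM hxM) hpM) _)
  have hyHS : HS ξ y := (hpHS.mul_left _).sub ((hpHS.mul_left _).smul _)
  obtain ⟨R, hR, hRc, hRle, hRsm, -⟩ := exists_sq_cut y hη.le
  have hbM : star y * y ∈ M := mul_mem (star_mem hyM) hyM
  have hRM : R ∈ M := mem_vn fun z hz => hRc z (commute_commutant hbM hz)
  have hRle' : ∀ i, ‖R (ξ i)‖ ≤ η⁻¹ * ‖y (ξ i)‖ := fun i => by
    rw [← div_eq_inv_mul, le_div_iff₀ hη, mul_comm]; exact hRle (ξ i)
  have hRsmall : ∀ v ∈ F, ‖R v‖ ≤ δ / 4 := by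
    refine hsm R hRM ?_ (hs_of_le hyHS hRle') ?_
    · exact opNorm_le_bound _ zero_le_one fun v => by
        rw [one_mul]; exact norm_proj_apply_le hR v
    · refine (norm_jv_le_of_le hyHS (inv_nonneg.2 hη.le) hRle').trans ?_
      refine (mul_le_mul_of_nonneg_left hQc (inv_nonneg.2 hη.le)).trans_eq ?_
      rw [← mul_assoc, inv_mul_cancel₀ hη.ne', one_mul]
  have hRp : R * p = R := by
    ext v
    show R (p v) = R v
    have h := hRle (v - p v)
    have h0 : y (v - p v) = 0 := by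
      have hyp : y * p = y := by
        rw [hydef, sub_mul, smul_mul_assoc, mul_assoc (p * x) p p,
          mul_assoc (p * (S - a)) p p, hp.isIdempotentElem.eq]
      rw [map_sub y, apply_mul y p, hyp, sub_self]
    rw [h0, norm_zero, map_sub] at h
    have h1 : R v - R (p v) = 0 := norm_le_zero_iff.1 (nonpos_of_mul_nonpos_right h hη)
    exact (sub_eq_zero.1 h1).symm
  have hpR : p * R = R := by
    have h := congrArg star hRp
    rwa [star_mul, hR.isSelfAdjoint.star_eq, hp.isSelfAdjoint.star_eq] at h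
  set q := p - R with hq
  have hqp : IsStarProjection q := by
    refine ⟨?_, hp.isSelfAdjoint.sub hR.isSelfAdjoint⟩
    show (p - R) * (p - R) = p - R
    rw [sub_mul, mul_sub, mul_sub, hp.isIdempotentElem.eq, hpR, hRp, hR.isIdempotentElem.eq,
      sub_self, sub_zero]
  have hqe : q * e = q := by
    rw [hq, sub_mul, hpe]
    conv_lhs => rw [← hRp, mul_assoc, hpe, hRp]
  have hqp1 : q * p = q := by rw [hq, sub_mul, hp.isIdempotentElem.eq, hRp]
  have hpq1 : p * q = q := by rw [hq, mul_sub, hp.isIdempotentElem.eq, hpR]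
  refine ⟨colourClass Q c, a, q, hcA, hcp, hco, hcs, haA, ?_, ?_, ?_, sub_mem hpM hRM, hqp, hqe,
    fun v hv => ?_, ?_⟩
  · show star a = a
    rw [hadef, star_smul, ha₀s.star_eq]
    congr 1
    simp
  · rw [hadef, smul_mul_assoc, ha₀e]
  · rw [hadef, norm_smul]
    refine (mul_le_of_le_one_left (norm_nonneg _) ?_).trans ha₀n
    have e : (1 - 1 / (r : ℂ)) = ((1 - 1 / (r : ℝ) : ℝ) : ℂ) := by push_cast; ring
    rw [e, Complex.norm_real, Real.norm_of_nonneg]
    · linarith [show 0 ≤ 1 / (r : ℝ) by positivity]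
    · rw [sub_nonneg, div_le_one (by linarith)]; exact hr1
  · have h : (e - q) v = (e - p) v + R v := by
      rw [← add_apply, hq, sub_sub_eq_add_sub, sub_add_eq_add_sub]
    rw [h]
    linarith [norm_add_le ((e - p) v) (R v), hpF v hv, hRsmall v hv]
  · have hdec : q * (S - a) * q = q * y * q + (1 / (r : ℂ)) • (q * x * q) := by
      have h1 : q * (p * (S - a) * p) * q = q * (S - a) * q := by
        rw [← mul_assoc, ← mul_assoc, hqp1, mul_assoc _ p q, hpq1]
      have h2 : q * (p * x * p) * q = q * x * q := by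
        rw [← mul_assoc, ← mul_assoc, hqp1, mul_assoc _ p q, hpq1]
      rw [hydef, mul_sub q (p * (S - a) * p), sub_mul (q * (p * (S - a) * p)),
        mul_smul_comm (1 / (r : ℂ)) q (p * x * p), smul_mul_assoc, h1, h2, sub_add_cancel]
    rw [hdec]
    refine (norm_add_le _ _).trans ?_
    have hqn : ‖q‖ ≤ 1 := opNorm_le_bound _ zero_le_one fun v => by
      rw [one_mul]; exact norm_proj_apply_le hqp v
    have hq1 : q = (1 - R) * p := by rw [sub_mul, one_mul, hRp, hq]
    have h1 : ‖q * y * q‖ ≤ η := by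
      refine opNorm_le_bound _ hη.le fun v => ?_
      show ‖q (y (q v))‖ ≤ _
      refine (norm_proj_apply_le hqp _).trans ?_
      rw [show q v = (1 - R) (p v) from congrArg (fun T : H →L[ℂ] H => T v) hq1]
      refine (hRsm (p v)).trans (mul_le_mul_of_nonneg_left ?_ hη.le)
      rw [show (1 - R) (p v) = q v from (congrArg (fun T : H →L[ℂ] H => T v) hq1).symm]
      exact norm_proj_apply_le hqp v
    have h2 : ‖(1 / (r : ℂ)) • (q * x * q)‖ ≤ 1 / (r : ℝ) * ‖x‖ := by
      rw [norm_smul]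
      refine mul_le_mul (by simp) ?_ (norm_nonneg _) (by positivity)
      refine (norm_mul_le _ _).trans ((mul_le_mul ((norm_mul_le _ _).trans
        (mul_le_of_le_one_left (norm_nonneg _) hqn)) hqn (norm_nonneg _) (norm_nonneg _)).trans_eq
          (mul_one _))
    have h3 : 1 / (r : ℝ) ≤ ε / 2 := by rw [div_le_div_iff₀ (by linarith) two_pos]; linarith
    have h4 := mul_le_mul_of_nonneg_right h3 (norm_nonneg x)
    rw [hηdef] at h1
    linarith

end Semi

end Vale.Agent.P078
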