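import Mathlib
import Vale.Agent.P078.Semi.InfPart
import Vale.Agent.P078.Semi.FinitePart
import Vale.Agent.P078.FinalWrapper
import Vale.Agent.P078.Core

/-!
# So-paving over every MASA of a semifinite von Neumann algebra
-/

open scoped InnerProductSpace
open ContinuousLinearMap

namespace Vale.Agent.P078

universe u

variable {H : Type u} [NormedAddCommGroup H] [InnerProductSpace ℂ H] [CompleteSpace H]

namespace Semi

lemma sopavable_succ {M : VonNeumannAlgebra H} {A : StarSubalgebra ℂ (H →L[ℂ] H)}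
    {x : H →L[ℂ] H} {ε : ℝ} {r : ℕ} (h : SOPavable M A x ε r) : SOPavable M A x ε (r + 1) := by
  intro F δ hδ
  obtain ⟨p, a, q, ⟨hpA, hpP, hpo, hp1⟩, ha, has, han, hq, hqP, hqF, hn⟩ := h F δ hδ
  refine ⟨Fin.cons 0 p, a, q, ⟨?_, ?_, ?_, ?_⟩, ha, has, han, hq, hqP, hqF, ?_⟩
  · exact Fin.cases (zero_mem A) hpA
  · exact Fin.cases (IsStarProjection.zero _) hpP
  · intro i j hij
    induction i using Fin.cases with
    | zero => rw [Fin.cons_zero, zero_mul]
    | succ i =>
      induction j using Fin.cases with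
      | zero => rw [Fin.cons_zero, mul_zero]
      | succ j =>
        rw [Fin.cons_succ, Fin.cons_succ]
        exact hpo i j fun h => hij (congrArg Fin.succ h)
  · rw [Fin.sum_univ_succ]; simpa using hp1
  · rw [Fin.sum_univ_succ]; simpa using hn

/-- The norm of a block diagonal sum. -/
lemma norm_blocks_le {z : H →L[ℂ] H} (hz : IsStarProjection z) {X Y : H →L[ℂ] H}
    (hX : z * X * z = X) (hY : (1 - z) * Y * (1 - z) = Y) {m : ℝ} (hXm : ‖X‖ ≤ m) (hYm : ‖Y‖ ≤ m) :
    ‖X + Y‖ ≤ m := by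
  have hm : 0 ≤ m := (norm_nonneg X).trans hXm
  refine opNorm_le_bound _ hm fun v => ?_
  refine le_of_pow_le_pow_left₀ two_ne_zero (by positivity) ?_
  have hXv : X v = z (X (z v)) := (congrArg (fun T : H →L[ℂ] H => T v) hX).symm
  have hYv : Y v = (1 - z) (Y ((1 - z) v)) := (congrArg (fun T : H →L[ℂ] H => T v) hY).symm
  have horth : ∀ u w : H, ⟪z u, (1 - z) w⟫_ℂ = 0 := fun u w => by
    rw [proj_inner hz, apply_mul, mul_sub, mul_one, hz.isIdempotentElem.eq, sub_self]
    simp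
  have h0 : ‖(X + Y) v‖ ^ 2 = ‖X v‖ ^ 2 + ‖Y v‖ ^ 2 := by
    have h := horth (X (z v)) (Y ((1 - z) v))
    rw [← hXv, ← hYv] at h
    show ‖X v + Y v‖ ^ 2 = _
    rw [norm_add_sq (𝕜 := ℂ), h]
    simp
  have h1 : ‖v‖ ^ 2 = ‖z v‖ ^ 2 + ‖(1 - z) v‖ ^ 2 := by
    have h := horth v v
    have e : v = z v + (1 - z) v := by
      show v = z v + (v - z v)
      rw [add_sub_cancel]
    conv_lhs => rw [e]
    rw [norm_add_sq (𝕜 := ℂ), h]
    simp
  have hX' : X (z v) = X v := by
    have e : X * z = X := by rw [← hX, mul_assoc, hz.isIdempotentElem.eq]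
    exact congrArg (fun T : H →L[ℂ] H => T v) e
  have hY' : Y ((1 - z) v) = Y v := by
    have e : Y * (1 - z) = Y := by rw [← hY, mul_assoc, hz.one_sub.isIdempotentElem.eq]
    exact congrArg (fun T : H →L[ℂ] H => T v) e
  have h2 : ‖X v‖ ^ 2 ≤ m ^ 2 * ‖z v‖ ^ 2 := by
    rw [← hX', ← mul_pow]
    exact pow_le_pow_left₀ (norm_nonneg _)
      ((X.le_opNorm _).trans (mul_le_mul_of_nonneg_right hXm (norm_nonneg _))) 2
  have h3 : ‖Y v‖ ^ 2 ≤ m ^ 2 * ‖(1 - z) v‖ ^ 2 := by
    rw [← hY', ← mul_pow]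
    exact pow_le_pow_left₀ (norm_nonneg _)
      ((Y.le_opNorm _).trans (mul_le_mul_of_nonneg_right hYm (norm_nonneg _))) 2
  rw [mul_pow, h1, h0, mul_add]
  linarith

lemma sandwich_eq {z p y : H →L[ℂ] H} (h1 : z * p = p) (h2 : p * z = p) :
    z * (p * y * p) * z = p * y * p := by
  rw [← mul_assoc, ← mul_assoc, h1, mul_assoc, h2]

lemma f_mul_z {r : ℕ} {p : Fin r → H →L[ℂ] H} (hp : ∀ i, IsStarProjection (p i))
    (ho : ∀ i j, i ≠ j → p i * p j = 0) (i : Fin r) :
    p i * (∑ j, p j) = p i ∧ (∑ j, p j) * p i = p i := by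
  refine ⟨?_, ?_⟩
  · rw [Finset.mul_sum, Finset.sum_eq_single i]
    · exact (hp i).isIdempotentElem.eq
    · exact fun j _ hj => ho i j (Ne.symm hj)
    · simp
  · rw [Finset.sum_mul, Finset.sum_eq_single i]
    · exact (hp i).isIdempotentElem.eq
    · exact fun j _ hj => ho j i hj
    · simp

theorem semifinite_paving {ε : ℝ} {r₁ r₂ : ℕ} (hε : 0 < ε) (hr₁ : 0 < r₁) (hr₂ : 2 ≤ ε * r₂)
    (hpave : ∀ (K : Type u) [NormedAddCommGroup K] [InnerProductSpace ℂ K] [CompleteSpace K]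
      (M : VonNeumannAlgebra K) (A : StarSubalgebra ℂ (K →L[ℂ] K)) (ξ : ℕ → K),
      IsMASA M A → IsFaithfulNormalTracialState M ξ →
      ∀ x ∈ M, IsSelfAdjoint x → SOPavable M A x ε r₁)
    {M : VonNeumannAlgebra H} {A : StarSubalgebra ℂ (H →L[ℂ] H)} {ι : Type u} {ξ : ι → H}
    (hA : IsMASA M A) (hξ : IsFaithfulSemifiniteTrace M ξ) {x : H →L[ℂ] H} (hxM : x ∈ M)
    (hxs : IsSelfAdjoint x) : SOPavable M A x ε (r₁ + r₂) := by
  intro F δ hδ
  obtain ⟨z, hzA, hz, hzf, hfin⟩ := finite_part_paving hpave hε.le hr₁ hA hξ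
  obtain ⟨p, a, q, hpA, hpP, hpo, hp1, ha, has, haz, han, hq, hqP, hqz, hqF, hn⟩ :=
    hfin x hxM hxs F (δ / 2) (half_pos hδ)
  set e := 1 - z with hedef
  have heA : e ∈ A := sub_mem (one_mem A) hzA
  have he : IsStarProjection e := hz.one_sub
  have hnf : ∀ f, IsFiniteProj A ξ f → f * e = 0 := fun f hf => by
    rw [hedef, mul_sub, mul_one, hzf f hf, sub_self]
  obtain ⟨P, b, Q, hPA, hPP, hPo, hP1, hb, hbs, hbe, hbn, hQ, hQP, hQe, hQF, hN⟩ :=
    inf_part_paving hA hξ he heA hnf hε hr₂ hxM hxs F (half_pos hδ)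
  have hze : z * e = 0 := by rw [hedef, mul_sub, mul_one, hz.isIdempotentElem.eq, sub_self]
  have hez : e * z = 0 := by rw [hedef, sub_mul, one_mul, hz.isIdempotentElem.eq, sub_self]
  have hzq : z * q = q := by
    have h := congrArg star hqz
    rwa [star_mul, hqP.isSelfAdjoint.star_eq, hz.isSelfAdjoint.star_eq] at h
  have heQ : e * Q = Q := by
    have h := congrArg star hQe
    rwa [star_mul, hQP.isSelfAdjoint.star_eq, he.isSelfAdjoint.star_eq] at h
  have hpz : ∀ i, p i * z = p i ∧ z * p i = p i := fun i => hp1 ▸ f_mul_z hpP hpo i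
  have hPe : ∀ i, P i * e = P i ∧ e * P i = P i := fun i => hP1 ▸ f_mul_z hPP hPo i
  have hkill : ∀ i j, p i * P j = 0 ∧ P j * p i = 0 := fun i j => by
    constructor
    · rw [← (hpz i).1, ← (hPe j).2, mul_assoc, ← mul_assoc z, hze, zero_mul, mul_zero]
    · rw [← (hPe j).1, ← (hpz i).2, mul_assoc, ← mul_assoc e, hez, zero_mul, mul_zero]
  have hqQ : q * Q = 0 := by
    rw [← hqz, ← heQ, mul_assoc, ← mul_assoc z, hze, zero_mul, mul_zero]
  have hQq : Q * q = 0 := by
    rw [← hQe, ← hzq, mul_assoc, ← mul_assoc e, hez, zero_mul, mul_zero]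
  refine ⟨Fin.append p P, a + b, q + Q, ⟨?_, ?_, ?_, ?_⟩, add_mem ha hb, has.add hbs, ?_,
    add_mem hq hQ, hqP.add hQP hqQ, fun v hv => ?_, ?_⟩
  · exact Fin.addCases (fun i => by rw [Fin.append_left]; exact hpA i)
      (fun j => by rw [Fin.append_right]; exact hPA j)
  · exact Fin.addCases (fun i => by rw [Fin.append_left]; exact hpP i)
      (fun j => by rw [Fin.append_right]; exact hPP j)
  · intro i j hij
    induction i using Fin.addCases with
    | left i =>
      induction j using Fin.addCases with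
      | left j =>
        rw [Fin.append_left, Fin.append_left]
        exact hpo i j fun h => hij (by rw [h])
      | right j => rw [Fin.append_left, Fin.append_right]; exact (hkill i j).1
    | right i =>
      induction j using Fin.addCases with
      | left j => rw [Fin.append_left, Fin.append_right]; exact (hkill j i).2
      | right j =>
        rw [Fin.append_right, Fin.append_right]
        exact hPo i j fun h => hij (by rw [h])
  · rw [Fin.sum_univ_add]
    simp only [Fin.append_left, Fin.append_right]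
    rw [hp1, hP1, hedef, add_sub_cancel]
  · refine norm_blocks_le hz ?_ ?_ han hbn
    · rw [hA.2.1 z hzA a ha, mul_assoc, hz.isIdempotentElem.eq, haz]
    · rw [← hedef, hA.2.1 e heA b hb, mul_assoc, he.isIdempotentElem.eq, hbe]
  · have h : (1 - (q + Q)) v = (z - q) v + (e - Q) v := by
      rw [← add_apply, hedef]; congr 1; abel
    rw [h]
    linarith [norm_add_le ((z - q) v) ((e - Q) v), hqF v hv, hQF v hv]
  · rw [Fin.sum_univ_add]
    simp only [Fin.append_left, Fin.append_right]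
    set S₁ := ∑ i, p i * x * p i with hS₁
    set S₂ := ∑ i, P i * x * P i with hS₂
    have hz1 : z * (S₁ - a) * z = S₁ - a := by
      rw [mul_sub, sub_mul, hS₁, Finset.mul_sum, Finset.sum_mul]
      congr 1
      · exact Finset.sum_congr rfl fun i _ => sandwich_eq (hpz i).2 (hpz i).1
      · rw [hA.2.1 z hzA a ha, mul_assoc, hz.isIdempotentElem.eq, haz]
    have he1 : e * (S₂ - b) * e = S₂ - b := by
      rw [mul_sub e S₂ b, sub_mul (e * S₂), hS₂, Finset.mul_sum, Finset.sum_mul]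
      congr 1
      · exact Finset.sum_congr rfl fun i _ => sandwich_eq (hPe i).2 (hPe i).1
      · rw [hA.2.1 e heA b hb, mul_assoc, he.isIdempotentElem.eq, hbe]
    have hq_e : q * e = 0 := by rw [← hqz, mul_assoc, hze, mul_zero]
    have he_q : e * q = 0 := by rw [← hzq, ← mul_assoc, hez, zero_mul]
    have hQ_z : Q * z = 0 := by rw [← hQe, mul_assoc, hez, mul_zero]
    have hz_Q : z * Q = 0 := by rw [← heQ, ← mul_assoc, hze, zero_mul]
    have hA1 : (q + Q) * (S₁ - a) * (q + Q) = q * (S₁ - a) * q := by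
      conv_lhs => rw [← hz1]
      conv_rhs => rw [← hz1]
      simp only [add_mul, mul_add, ← mul_assoc, hQ_z, zero_mul, add_zero]
      simp only [mul_assoc, hz_Q, mul_zero, add_zero]
    have hA2 : (q + Q) * (S₂ - b) * (q + Q) = Q * (S₂ - b) * Q := by
      conv_lhs => rw [← he1]
      conv_rhs => rw [← he1]
      simp only [add_mul, mul_add, ← mul_assoc, hq_e, zero_mul, zero_add]
      simp only [mul_assoc, he_q, mul_zero, zero_add]
    rw [show S₁ + S₂ - (a + b) = (S₁ - a) + (S₂ - b) by abel, mul_add (q + Q), add_mul _ _ (q + Q),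
      hA1, hA2]
    refine norm_blocks_le hz (sandwich_eq hzq hqz) ?_ hn hN
    rw [← hedef]
    exact sandwich_eq heQ hQe

theorem semifinite_paving_poly :
    ∃ C : ℝ, ∃ k : ℕ, ∀ ε : ℝ, 0 < ε → ε < 1 → ∃ r : ℕ, (r : ℝ) ≤ C / ε ^ k ∧
      ∀ (H : Type u) [NormedAddCommGroup H] [InnerProductSpace ℂ H] [CompleteSpace H]
        (M : VonNeumannAlgebra H) (A : StarSubalgebra ℂ (H →L[ℂ] H)) (ι : Type u) (ξ : ι → H),
        IsMASA M A → IsFaithfulSemifiniteTrace M ξ →
        ∀ x ∈ M, IsSelfAdjoint x → SOPavable M A x ε r := by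
  obtain ⟨C, k, hCk⟩ := sopaving_of_core.{u} corePaving
  refine ⟨|C| + 4, k + 1, fun ε hε hε1 => ?_⟩
  obtain ⟨r, hr, hpave⟩ := hCk ε hε hε1
  refine ⟨r + 1 + ⌈2 / ε⌉₊, ?_, fun H _ _ _ M A ι ξ hA hξ x hx hxs => ?_⟩
  · have h1 : (⌈2 / ε⌉₊ : ℝ) ≤ 2 / ε + 1 := (Nat.ceil_lt_add_one (by positivity)).le
    have hk1 : 0 < ε ^ (k + 1) := by positivity
    have hpow : ε ^ (k + 1) ≤ ε := by
      calc ε ^ (k + 1) ≤ ε ^ 1 := pow_le_pow_of_le_one hε.le hε1.le (by omega)
        _ = ε := pow_one ε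
    have h2 : C / ε ^ k ≤ |C| / ε ^ (k + 1) :=
      (div_le_div_of_nonneg_right (le_abs_self C) (by positivity)).trans
        (div_le_div_of_nonneg_left (abs_nonneg C) hk1
          (pow_le_pow_of_le_one hε.le hε1.le k.le_succ))
    have h3 : 2 / ε ≤ 2 / ε ^ (k + 1) := div_le_div_of_nonneg_left zero_le_two hk1 hpow
    have h4 : (1 : ℝ) ≤ 1 / ε ^ (k + 1) := by rw [le_div_iff₀ hk1]; linarith
    push_cast
    have h5 : (|C| + 4) / ε ^ (k + 1)
        = |C| / ε ^ (k + 1) + 2 / ε ^ (k + 1) + 2 * (1 / ε ^ (k + 1)) := by ring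
    linarith
  · refine semifinite_paving hε r.succ_pos ?_ (fun K _ _ _ M A ξ hA hξ x hx hxs =>
      sopavable_succ (hpave K M A ξ hA hξ x hx hxs)) hA hξ hx hxs
    have h := Nat.le_ceil (2 / ε)
    rw [div_le_iff₀ hε] at h
    linarith

end Semi

end Vale.Agent.P078
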