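import Mathlib
import Vale.Agent.P078.Semi.Defs
import Vale.Agent.P078.FinalVN

/-!
# Tracial states and `B(H)` give semifinite traces
-/

open scoped InnerProductSpace
open ContinuousLinearMap

namespace Vale.Agent.P078

universe u

variable {H : Type u} [NormedAddCommGroup H] [InnerProductSpace ℂ H] [CompleteSpace H]

namespace Semi

lemma tracial_isSemifinite {M : VonNeumannAlgebra H} {ξ : ℕ → H}
    (hξ : IsFaithfulNormalTracialState M ξ) :
    IsFaithfulSemifiniteTrace M (fun i : ULift.{u} ℕ => ξ i.down) := by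
  have hs : ∀ x : H →L[ℂ] H, Summable fun i : ULift.{u} ℕ => ‖x (ξ i.down)‖ ^ 2 := fun x =>
    (VN.summable_norm_sq hξ x).comp_injective ULift.down_injective
  have ht : ∀ x : H →L[ℂ] H,
      ∑' i : ULift.{u} ℕ, ‖x (ξ i.down)‖ ^ 2 = ∑' n, ‖x (ξ n)‖ ^ 2 := fun x =>
    Equiv.ulift.tsum_eq fun n => ‖x (ξ n)‖ ^ 2
  refine ⟨fun x hx _ => ⟨hs _, ?_⟩, fun x hx h => ?_,
    fun F δ hδ => ⟨1, one_mem M, IsStarProjection.one _, hs _, fun v _ => by simpa using hδ⟩⟩
  · rw [ht, ht]
    have h := hξ.2.1 x hx (star x) (star_mem hx)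
    conv_lhs at h => rw [← star_star x]
    rw [star_star x, VN.tsum_star_mul x] at h
    have h2 : (∑' n, ⟪ξ n, (x * star x) (ξ n)⟫_ℂ) = ((∑' n, ‖star x (ξ n)‖ ^ 2 : ℝ) : ℂ) := by
      have := VN.tsum_star_mul (ξ := ξ) (star x)
      rwa [star_star] at this
    rw [h2] at h
    exact_mod_cast h
  · refine hξ.2.2 x hx ?_
    rw [VN.tsum_star_mul, ← ht]
    simp [h]

/-- The von Neumann algebra of all bounded operators. -/
noncomputable def fullVN (H : Type u) [NormedAddCommGroup H] [InnerProductSpace ℂ H] [CompleteSpace H] :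
    VonNeumannAlgebra H :=
  { (⊤ : StarSubalgebra ℂ (H →L[ℂ] H)) with
    centralizer_centralizer' := by
      refine Set.Subset.antisymm (fun x _ => trivial) ?_
      exact Set.subset_centralizer_centralizer }

lemma mem_fullVN (x : H →L[ℂ] H) : x ∈ fullVN H := trivial

lemma hasSum_norm_sq_inner {κ : Type*} (b : HilbertBasis κ ℂ H) (v : H) :
    HasSum (fun j => ‖⟪b j, v⟫_ℂ‖ ^ 2) (‖v‖ ^ 2) := by
  have h := (b.hasSum_inner_mul_inner v v).mapL Complex.reCLM
  have e : (fun j => Complex.reCLM (⟪v, b j⟫_ℂ * ⟪b j, v⟫_ℂ)) = fun j => ‖⟪b j, v⟫_ℂ‖ ^ 2 := by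
    funext j
    rw [← inner_conj_symm v (b j), mul_comm, Complex.mul_conj]
    simp [Complex.normSq_eq_norm_sq, ← Complex.ofReal_pow]
  rw [e] at h
  have e2 : Complex.reCLM ⟪v, v⟫_ℂ = ‖v‖ ^ 2 := inner_self_eq_norm_sq (𝕜 := ℂ) v
  rwa [e2] at h

lemma hilbertBasis_star_sum {κ : Type*} (b : HilbertBasis κ ℂ H) (x : H →L[ℂ] H)
    (hx : Summable fun i => ‖x (b i)‖ ^ 2) :
    Summable (fun i => ‖star x (b i)‖ ^ 2) ∧ ∑' i, ‖star x (b i)‖ ^ 2 = ∑' i, ‖x (b i)‖ ^ 2 := by
  obtain ⟨f, hf⟩ : ∃ f : κ × κ → ℝ, ∀ i j, f (i, j) = ‖⟪b j, x (b i)⟫_ℂ‖ ^ 2 :=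
    ⟨fun ij => ‖⟪b ij.2, x (b ij.1)⟫_ℂ‖ ^ 2, fun _ _ => rfl⟩
  have hf0 : 0 ≤ f := fun ⟨i, j⟩ => by rw [Pi.zero_apply, hf]; positivity
  have hrow : ∀ i, HasSum (fun j => f (i, j)) (‖x (b i)‖ ^ 2) := fun i => by
    simp only [hf]
    exact hasSum_norm_sq_inner b _
  have hsum : Summable f := (summable_prod_of_nonneg hf0).2
    ⟨fun i => (hrow i).summable, by simpa only [(hrow _).tsum_eq] using hx⟩
  have hcol : ∀ j, HasSum (fun i => f (i, j)) (‖star x (b j)‖ ^ 2) := fun j => by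
    have e : (fun i => f (i, j)) = fun i => ‖⟪b i, star x (b j)⟫_ℂ‖ ^ 2 := by
      funext i
      rw [hf]
      rw [star_eq_adjoint, adjoint_inner_right, norm_inner_symm]
    rw [e]
    exact hasSum_norm_sq_inner b _
  have hsum' := hsum.prod_symm
  have h2 := (summable_prod_of_nonneg (f := fun ji : κ × κ => f ji.swap) fun ji => hf0 ji.swap).1 hsum'
  refine ⟨h2.2.congr fun j => (hcol j).tsum_eq, ?_⟩
  calc ∑' j, ‖star x (b j)‖ ^ 2 = ∑' j, ∑' i, f (i, j) :=
        tsum_congr fun j => ((hcol j).tsum_eq).symm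
    _ = ∑' i, ∑' j, f (i, j) := Summable.tsum_comm' hsum (fun i => (hrow i).summable)
        (fun j => (hcol j).summable)
    _ = ∑' i, ‖x (b i)‖ ^ 2 := tsum_congr fun i => (hrow i).tsum_eq

theorem bounded_operators_isSemifinite (M : VonNeumannAlgebra H) (hM : ∀ x, x ∈ M) :
    ∃ (ι : Type u) (ξ : ι → H), IsFaithfulSemifiniteTrace M ξ := by
  obtain ⟨w, b, -⟩ := exists_hilbertBasis ℂ H
  refine ⟨w, b, fun x _ hx => hilbertBasis_star_sum b x hx, fun x _ h => ?_, fun F δ hδ => ?_⟩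
  · have h1 : ∀ v, star x v = 0 := fun v => by
      have h2 : ‖star x v‖ ^ 2 = 0 := by
        rw [← (hasSum_norm_sq_inner b (star x v)).tsum_eq]
        refine (tsum_congr fun j => ?_).trans tsum_zero
        rw [star_eq_adjoint, adjoint_inner_right, h j]
        simp
      simpa using h2
    rw [← star_star x, show star x = 0 from ext h1, star_zero]
  · let K : Submodule ℂ H := Submodule.span ℂ (F : Set H)
    have : FiniteDimensional ℂ K := FiniteDimensional.span_finset ℂ F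
    refine ⟨K.starProjection, hM _, isStarProjection_starProjection, ?_, fun v hv => ?_⟩
    · set o := stdOrthonormalBasis ℂ K
      have e : ∀ v : H, ‖K.starProjection v‖ ^ 2 = ∑ k, ‖⟪(o k : H), v⟫_ℂ‖ ^ 2 := fun v => by
        rw [show ‖K.starProjection v‖ = ‖K.orthogonalProjectionOnto v‖ from rfl,
          ← o.sum_sq_norm_inner_right]
        refine Finset.sum_congr rfl fun k _ => ?_
        rw [Submodule.coe_inner]
        show ‖⟪(o k : H), K.starProjection v⟫_ℂ‖ ^ 2 = _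
        rw [← Submodule.inner_starProjection_left_eq_right,
          Submodule.starProjection_eq_self_iff.2 (o k).2]
      simp only [e]
      exact summable_sum fun k _ => by
        refine (hasSum_norm_sq_inner b (o k : H)).summable.congr fun i => ?_
        rw [norm_inner_symm]
    · have hvK : K.starProjection v = v :=
        Submodule.starProjection_eq_self_iff.2 (Submodule.subset_span hv)
      simpa [hvK] using hδ

end Semi

end Vale.Agent.P078
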